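import Vale.Agent.P221.T.BPS
import Vale.Agent.P251.S.TowerR

/-!
# P221, part T: linearity of the graded extensions

* `ext_isLin`, `hat_isLin` : the graded extensions `ext M a`, `hat M y` are linear;
* `hat_mul` : `hat M (v y) = gc (rmul v) (hat M y)`;
* `IsLin.gc`, `IsLin.ext_eq`, `eq_hat` : linear maps of degree `k`;
* `isLin_of_c`, `isLin_of_w` : linearity of extensions to the completions.
-/

open CategoryTheory MonoidalCategory MonObj Limits Pretriangulated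
open Vale.Agent.P251.T Vale.Agent.P251.M Vale.Agent.P251.S

set_option linter.unusedSectionVars false

universe u

namespace Vale.Agent.P221.T

variable {𝒯 : Type u} [Category.{0} 𝒯] [Preadditive 𝒯] [HasZeroObject 𝒯]
    [HasShift 𝒯 ℤ] [∀ n : ℤ, (shiftFunctor 𝒯 n).Additive] [Pretriangulated 𝒯] [IsTriangulated 𝒯]
    [MonoidalCategory 𝒯] [SymmetricCategory 𝒯] [TensorTriangulated 𝒯] [MonoidalClosed 𝒯]
    [HasCoproducts.{0} 𝒯] [HasProducts.{0} 𝒯] [StableCat 𝒯]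

variable {R : 𝒯} [MonObj R] {X Y Z Z' : 𝒯}

theorem fm_tensorLeft (A : 𝒯) {P Q : 𝒯} {m : ℤ} (γ : P⟦m⟧ ⟶ Q) :
    fm (tensorLeft A) γ = (csh A m P).inv ≫ A ◁ γ := rfl

/-- naturality in the functor -/
theorem fm_tlMap {A B : 𝒯} (φ : A ⟶ B) {P Q : 𝒯} {m : ℤ} (γ : P⟦m⟧ ⟶ Q) :
    fm (tensorLeft A) γ ≫ φ ▷ Q = (φ ▷ P)⟦m⟧' ≫ fm (tensorLeft B) γ := by
  change ((csh A m P).inv ≫ A ◁ γ) ≫ φ ▷ Q = (φ ▷ P)⟦m⟧' ≫ (csh B m P).inv ≫ B ◁ γ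
  rw [Category.assoc, whisker_exchange, csh_inv_tlMap_assoc]

/-- the associator -/
theorem fm_assoc (A B : 𝒯) {P Q : 𝒯} {m : ℤ} (γ : P⟦m⟧ ⟶ Q) :
    fm (tensorLeft A) (fm (tensorLeft B) γ) ≫ (α_ A B Q).inv =
      ((α_ A B P).inv)⟦m⟧' ≫ fm (tensorLeft (A ⊗ B)) γ := by
  have h := csh_associator A B m P
  change ((csh A m (B ⊗ P)).inv ≫ A ◁ ((csh B m P).inv ≫ B ◁ γ)) ≫ (α_ A B Q).inv =
    ((α_ A B P).inv)⟦m⟧' ≫ (csh (A ⊗ B) m P).inv ≫ (A ⊗ B) ◁ γ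
  rw [MonoidalCategory.whiskerLeft_comp,
    ← cancel_epi ((csh A m (B ⊗ P)).hom), Category.assoc,
    Iso.hom_inv_id_assoc, ← cancel_epi (A ◁ (csh B m P).hom), Category.assoc,
    ← MonoidalCategory.whiskerLeft_comp_assoc, Iso.hom_inv_id,
    MonoidalCategory.whiskerLeft_id, Category.id_comp, ← cancel_epi (α_ A B (P⟦m⟧)).hom]
  have h2 : (α_ A B (P⟦m⟧)).hom ≫ A ◁ (csh B m P).hom ≫ (csh A m (B ⊗ P)).hom ≫
      ((α_ A B P).inv)⟦m⟧' ≫ (csh (A ⊗ B) m P).inv ≫ (A ⊗ B) ◁ γ = (A ⊗ B) ◁ γ := by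
    rw [← reassoc_of% h, ← Functor.map_comp_assoc, Iso.hom_inv_id,
      CategoryTheory.Functor.map_id, Category.id_comp, Iso.hom_inv_id_assoc]
  rw [h2]
  simp

/-- the graded extensions are linear -/
theorem ext_isLin (M : ModStr R Y) {k : ℤ} (a : Z⟦k⟧ ⟶ Y) :
    IsLin (ModStr.free R Z) M (ext M a) := by
  unfold IsLin
  have h1 : (R ◁ M.act) ≫ M.act = (α_ R R Y).inv ≫ (μ[R] ▷ Y) ≫ M.act := by
    rw [M.mul_act]; simp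
  have h2 : fm (tensorLeft R) (fm (tensorLeft R) a ≫ M.act) =
      fm (tensorLeft R) (fm (tensorLeft R) a) ≫ (R ◁ M.act) := fm_comp _ _ _
  rw [ext, ext, h2, Category.assoc, h1, reassoc_of% (fm_assoc R R a),
    reassoc_of% (fm_tlMap μ[R] a), ← Functor.map_comp_assoc]
  rfl

/-- the graded extensions are linear -/
theorem hat_isLin (M : ModStr R Y) {k : ℤ} (y : (𝟙_ 𝒯)⟦k⟧ ⟶ Y) :
    IsLin (ModStr.self R) M (hat M y) := by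
  have h := ext_isLin M y
  unfold IsLin at h ⊢
  rw [hat, shift_ext, h, ← Functor.map_comp_assoc, ← Functor.map_comp_assoc]
  congr 2
  change (R ◁ (ρ_ R).inv) ≫ (α_ R R (𝟙_ 𝒯)).inv ≫ (μ[R] ▷ (𝟙_ 𝒯)) = μ[R] ≫ (ρ_ R).inv
  rw [rightUnitor_inv_naturality]
  simp

/-- `hat M (v y) = gc (rmul v) (hat M y)` -/
theorem hat_mul (M : ModStr R Y) {m k k' : ℤ} (h : k + m = k') (v : (𝟙_ 𝒯)⟦m⟧ ⟶ R)
    (y : (𝟙_ 𝒯)⟦k⟧ ⟶ Y) : hat M (mul M h v y) = gc h (rmul v) (hat M y) := by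
  have h1 : ext M (hat M y) = (μ[R])⟦k⟧' ≫ hat M y := hat_isLin M y
  rw [mul, hat, ext_gc, h1, ← gc_map, comp_gc]
  rfl

/-- composites of linear maps are linear -/
theorem IsLin.gc {M : ModStr R X} {N : ModStr R Y} {N' : ModStr R Z} {j k k' : ℤ} {f : X⟦j⟧ ⟶ Y}
    {g : Y⟦k⟧ ⟶ Z} (hf : IsLin M N f) (hg : IsLin N N' g) (h : k + j = k') :
    IsLin M N' (gc h f g) := by
  have h1 : ext N f = M.act⟦j⟧' ≫ f := hf
  unfold IsLin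
  rw [ext_gc_lin hg h, h1, comp_gc]

/-- composite with an ungraded linear map -/
theorem IsLin.comp {M : ModStr R X} {N : ModStr R Y} {N' : ModStr R Z} {j : ℤ} {f : X⟦j⟧ ⟶ Y}
    {g : Y ⟶ Z} (hf : IsLin M N f) (hg : N.IsLinear N' g) : IsLin M N' (f ≫ g) := by
  have h1 : ext N f = M.act⟦j⟧' ≫ f := hf
  have h2 : N.act ≫ g = (R ◁ g) ≫ N'.act := hg
  unfold IsLin
  rw [← Category.assoc, ← h1, ext, ext, Category.assoc, h2, fm_comp, Category.assoc]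
  rfl

/-- composite with an ungraded linear map -/
theorem IsLin.shift_comp {M : ModStr R X} {N : ModStr R Y} {N' : ModStr R Z} {j : ℤ} {f : X ⟶ Y}
    {g : Y⟦j⟧ ⟶ Z} (hf : M.IsLinear N f) (hg : IsLin N N' g) : IsLin M N' (f⟦j⟧' ≫ g) := by
  have h1 : ext N' g = N.act⟦j⟧' ≫ g := hg
  have h2 : M.act ≫ f = (R ◁ f) ≫ N.act := hf
  unfold IsLin
  rw [shift_ext, h1, ← Functor.map_comp_assoc, ← h2, Functor.map_comp_assoc]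

theorem IsLin.add {M : ModStr R X} {N : ModStr R Y} {j : ℤ} {f g : X⟦j⟧ ⟶ Y}
    (hf : IsLin M N f) (hg : IsLin M N g) : IsLin M N (f + g) := by
  unfold IsLin at hf hg ⊢
  rw [ext_add, hf, hg, Preadditive.comp_add]

theorem ext_zero (M : ModStr R X) (k : ℤ) : ext M (0 : Z⟦k⟧ ⟶ X) = 0 := by
  have h := ext_add M (0 : Z⟦k⟧ ⟶ X) 0
  rw [_root_.add_zero] at h
  exact left_eq_add.1 h

theorem IsLin.zero (M : ModStr R X) (N : ModStr R Y) (j : ℤ) : IsLin M N (0 : X⟦j⟧ ⟶ Y) := by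
  unfold IsLin
  rw [ext_zero, comp_zero]

/-- the graded extension restricts to the given map -/
theorem unit_ext (M : ModStr R X) {k : ℤ} (a : Z⟦k⟧ ⟶ X) :
    (ModStr.unitMap R Z)⟦k⟧' ≫ ext M a = a := by
  change (ModStr.unitMap R Z)⟦k⟧' ≫ ((csh R k Z).inv ≫ R ◁ a) ≫ M.act = a
  have h1 : (ModStr.unitMap R Z)⟦k⟧' ≫ (csh R k Z).inv = ModStr.unitMap R (Z⟦k⟧) := by
    have h2 : ModStr.unitMap R (Z⟦k⟧) ≫ (csh R k Z).hom = (ModStr.unitMap R Z)⟦k⟧' :=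
      unitMap_csh k Z
    rw [← h2, Category.assoc, Iso.hom_inv_id, Category.comp_id]
  rw [Category.assoc, reassoc_of% h1]
  exact M.unitMap_ext a

/-- a linear map from a free module is the extension of its restriction -/
theorem IsLin.eq_ext {M : ModStr R X} {k : ℤ} {g : (R ⊗ Z)⟦k⟧ ⟶ X}
    (hg : IsLin (ModStr.free R Z) M g) : g = ext M ((ModStr.unitMap R Z)⟦k⟧' ≫ g) := by
  have h1 : ext M g = ((ModStr.free R Z).act)⟦k⟧' ≫ g := hg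
  rw [shift_ext, h1, ← Functor.map_comp_assoc]
  have h2 : (R ◁ ModStr.unitMap R Z) ≫ (ModStr.free R Z).act = 𝟙 _ := by
    change (R ◁ ModStr.unitMap R Z) ≫ (α_ R R Z).inv ≫ (μ[R] ▷ Z) = 𝟙 _
    have h3 : (R ◁ η[R]) ≫ μ[R] = (ρ_ R).hom := MonObj.mul_one R
    unfold ModStr.unitMap
    rw [MonoidalCategory.whiskerLeft_comp, Category.assoc,
      associator_inv_naturality_middle_assoc, ← comp_whiskerRight, h3]
    simp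
  rw [h2, CategoryTheory.Functor.map_id, Category.id_comp]

theorem isLin_free_ext {M : ModStr R X} {k : ℤ} {g g' : (R ⊗ Z)⟦k⟧ ⟶ X}
    (hg : IsLin (ModStr.free R Z) M g) (hg' : IsLin (ModStr.free R Z) M g')
    (h : (ModStr.unitMap R Z)⟦k⟧' ≫ g = (ModStr.unitMap R Z)⟦k⟧' ≫ g') : g = g' := by
  rw [hg.eq_ext, h, ← hg'.eq_ext]

/-- `hat M y` restricts to `y` -/
theorem unit_hat (M : ModStr R X) {k : ℤ} (y : (𝟙_ 𝒯)⟦k⟧ ⟶ X) : (η[R])⟦k⟧' ≫ hat M y = y := by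
  have h := unit_ext M y
  rw [hat, ← Functor.map_comp_assoc]
  have h1 : η[R] ≫ (ρ_ R).inv = ModStr.unitMap R (𝟙_ 𝒯) := by
    unfold ModStr.unitMap
    rw [rightUnitor_inv_naturality, unitors_inv_equal]
  rw [h1, h]

/-- a linear map from `R` is determined by its restriction to the unit -/
theorem IsLin.eq_hat {M : ModStr R X} {k : ℤ} {g : R⟦k⟧ ⟶ X}
    (hg : IsLin (ModStr.self R) M g) : g = hat M ((η[R])⟦k⟧' ≫ g) := by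
  have h1 : ext M g = (μ[R])⟦k⟧' ≫ g := hg
  rw [hat, shift_ext, h1, ← Functor.map_comp_assoc, ← Functor.map_comp_assoc]
  have h3 : (R ◁ η[R]) ≫ μ[R] = (ρ_ R).hom := MonObj.mul_one R
  rw [Category.assoc, h3, Iso.inv_hom_id, CategoryTheory.Functor.map_id, Category.id_comp]

theorem isLin_self_ext {M : ModStr R X} {k : ℤ} {g g' : R⟦k⟧ ⟶ X}
    (hg : IsLin (ModStr.self R) M g) (hg' : IsLin (ModStr.self R) M g')
    (h : (η[R])⟦k⟧' ≫ g = (η[R])⟦k⟧' ≫ g') : g = g' := by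
  rw [hg.eq_hat, h, ← hg'.eq_hat]

/-- `hat` of an element of `π_m R` -/
theorem rmul_eq_hat {m : ℤ} (v : (𝟙_ 𝒯)⟦m⟧ ⟶ R) : rmul v = hat (ModStr.self R) v := rfl

theorem rmul_isLin {m : ℤ} (v : (𝟙_ 𝒯)⟦m⟧ ⟶ R) :
    IsLin (ModStr.self R) (ModStr.self R) (rmul v) := hat_isLin _ v

theorem unit_rmul {m : ℤ} (v : (𝟙_ 𝒯)⟦m⟧ ⟶ R) : (η[R])⟦m⟧' ≫ rmul v = v :=
  unit_hat (ModStr.self R) v

/-- associativity of the products -/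
theorem mul_mul (M : ModStr R X) {m l k k₁ k₂ k' : ℤ} (v : (𝟙_ 𝒯)⟦m⟧ ⟶ R)
    (w : (𝟙_ 𝒯)⟦l⟧ ⟶ R) (y : (𝟙_ 𝒯)⟦k⟧ ⟶ X) (h₁ : k + l = k₁) (h₂ : k₁ + m = k')
    (h₃ : l + m = k₂) (h₄ : k + k₂ = k') :
    mul M h₂ v (mul M h₁ w y) = mul M h₄ (mul (ModStr.self R) h₃ v w) y := by
  rw [mul, hat_mul, gc_assoc _ _ _ h₁ h₂ h₃ h₄]
  rfl

/-- relation with the linear maps of `P251` -/
theorem isLin_iff {M : ModStr R X} {N : ModStr R Y} {j : ℤ} {f : X⟦j⟧ ⟶ Y} :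
    IsLin M N f ↔ (csh R j X).hom ≫ M.act⟦j⟧' ≫ f = (R ◁ f) ≫ N.act := by
  unfold IsLin
  change ((csh R j X).inv ≫ R ◁ f) ≫ N.act = _ ↔ _
  rw [Category.assoc, Iso.inv_comp_eq]
  exact eq_comm

/-! ### Completions -/

section compl

variable {p : ℕ} [Fact p.Prime] {P W : 𝒯} [IsCommMonObj R]

/-- maps to `p`-complete objects extend to the completion `P` of `R` -/
theorem BPS.exists_ext_c (b : BPS p R P W) (hZ : H395.PComplete p Z) {k : ℤ} (f : R⟦k⟧ ⟶ Z) :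
    ∃ g : P⟦k⟧ ⟶ Z, b.c⟦k⟧' ≫ g = f := by
  obtain ⟨g, hg⟩ := (b.c_bij (𝟙_ 𝒯) Z hZ k).2 (((λ_ R).hom)⟦k⟧' ≫ f)
  refine ⟨((λ_ P).inv)⟦k⟧' ≫ g, ?_⟩
  dsimp only at hg
  rw [← Functor.map_comp_assoc, leftUnitor_inv_naturality, Functor.map_comp_assoc, hg,
    ← Functor.map_comp_assoc, Iso.inv_hom_id, CategoryTheory.Functor.map_id, Category.id_comp]

/-- uniqueness -/
theorem BPS.ext_c (b : BPS p R P W) (hZ : H395.PComplete p Z) {k : ℤ} {g g' : P⟦k⟧ ⟶ Z}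
    (h : b.c⟦k⟧' ≫ g = b.c⟦k⟧' ≫ g') : g = g' := by
  have h1 : ∀ g : P⟦k⟧ ⟶ Z, ((𝟙_ 𝒯) ◁ b.c)⟦k⟧' ≫ ((λ_ P).hom)⟦k⟧' ≫ g =
      ((λ_ R).hom)⟦k⟧' ≫ b.c⟦k⟧' ≫ g := fun g => by
    rw [← Functor.map_comp_assoc, leftUnitor_naturality, Functor.map_comp_assoc]
  have h2 := (b.c_bij (𝟙_ 𝒯) Z hZ k).1 (a₁ := ((λ_ P).hom)⟦k⟧' ≫ g)
    (a₂ := ((λ_ P).hom)⟦k⟧' ≫ g') (by
      dsimp only
      rw [h1, h1, h])
  exact (cancel_epi (((λ_ P).hom)⟦k⟧')).1 h2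

/-- maps to `p`-complete objects extend to the completion `W` of `R ⊗ R` -/
theorem BPS.exists_ext_w (b : BPS p R P W) (hZ : H395.PComplete p Z) {k : ℤ}
    (f : (R ⊗ R)⟦k⟧ ⟶ Z) : ∃ g : W⟦k⟧ ⟶ Z, b.w⟦k⟧' ≫ g = f := by
  obtain ⟨g, hg⟩ := (b.w_bij (𝟙_ 𝒯) Z hZ k).2 (((λ_ (R ⊗ R)).hom)⟦k⟧' ≫ f)
  refine ⟨((λ_ W).inv)⟦k⟧' ≫ g, ?_⟩
  dsimp only at hg
  rw [← Functor.map_comp_assoc, leftUnitor_inv_naturality, Functor.map_comp_assoc, hg,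
    ← Functor.map_comp_assoc, Iso.inv_hom_id, CategoryTheory.Functor.map_id, Category.id_comp]

/-- uniqueness -/
theorem BPS.ext_w (b : BPS p R P W) (hZ : H395.PComplete p Z) {k : ℤ} {g g' : W⟦k⟧ ⟶ Z}
    (h : b.w⟦k⟧' ≫ g = b.w⟦k⟧' ≫ g') : g = g' := by
  have h1 : ∀ g : W⟦k⟧ ⟶ Z, ((𝟙_ 𝒯) ◁ b.w)⟦k⟧' ≫ ((λ_ W).hom)⟦k⟧' ≫ g =
      ((λ_ (R ⊗ R)).hom)⟦k⟧' ≫ b.w⟦k⟧' ≫ g := fun g => by
    rw [← Functor.map_comp_assoc, leftUnitor_naturality, Functor.map_comp_assoc]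
  have h2 := (b.w_bij (𝟙_ 𝒯) Z hZ k).1 (a₁ := ((λ_ W).hom)⟦k⟧' ≫ g)
    (a₂ := ((λ_ W).hom)⟦k⟧' ≫ g') (by
      dsimp only
      rw [h1, h1, h])
  exact (cancel_epi (((λ_ W).hom)⟦k⟧')).1 h2

/-- linearity of the extension to `P` -/
theorem BPS.isLin_of_c (b : BPS p R P W) {N : ModStr R Z} (hZ : H395.PComplete p Z) {k : ℤ}
    {g : P⟦k⟧ ⟶ Z} (hg : IsLin (ModStr.self R) N (b.c⟦k⟧' ≫ g)) : IsLin b.MP N g := by
  have h1 : ext N (b.c⟦k⟧' ≫ g) = (μ[R])⟦k⟧' ≫ b.c⟦k⟧' ≫ g := hg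
  unfold IsLin
  refine (b.c_bij R Z hZ k).1 ?_
  dsimp only
  rw [← shift_ext, h1, ← Functor.map_comp_assoc, ← Functor.map_comp_assoc, b.c_lin]

/-- linearity of the extension to `W` -/
theorem BPS.isLin_of_w (b : BPS p R P W) {N : ModStr R Z} (hZ : H395.PComplete p Z) {k : ℤ}
    {g : W⟦k⟧ ⟶ Z} (hg : IsLin (ModStr.free R R) N (b.w⟦k⟧' ≫ g)) : IsLin b.MW N g := by
  have h1 : ext N (b.w⟦k⟧' ≫ g) = ((ModStr.free R R).act)⟦k⟧' ≫ b.w⟦k⟧' ≫ g := hg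
  have h2 : (ModStr.free R R).act ≫ b.w = (R ◁ b.w) ≫ b.MW.act := b.w_lin
  unfold IsLin
  refine (b.w_bij R Z hZ k).1 ?_
  dsimp only
  rw [← shift_ext, h1, ← Functor.map_comp_assoc, ← Functor.map_comp_assoc, h2]

/-- the linear extension to `P` of `y : 𝟙⟦k⟧ ⟶ Z` -/
theorem BPS.exists_hat_c (b : BPS p R P W) (N : ModStr R Z) (hZ : H395.PComplete p Z) {k : ℤ}
    (y : (𝟙_ 𝒯)⟦k⟧ ⟶ Z) : ∃ g : P⟦k⟧ ⟶ Z, b.c⟦k⟧' ≫ g = hat N y ∧ IsLin b.MP N g := by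
  obtain ⟨g, hg⟩ := b.exists_ext_c hZ (hat N y)
  exact ⟨g, hg, b.isLin_of_c hZ (by rw [hg]; exact hat_isLin N y)⟩

/-- the linear extension to `W` of `a : R⟦k⟧ ⟶ Z` -/
theorem BPS.exists_ext_w' (b : BPS p R P W) (N : ModStr R Z) (hZ : H395.PComplete p Z) {k : ℤ}
    (a : R⟦k⟧ ⟶ Z) : ∃ g : W⟦k⟧ ⟶ Z, b.w⟦k⟧' ≫ g = ext N a ∧ IsLin b.MW N g := by
  obtain ⟨g, hg⟩ := b.exists_ext_w hZ (ext N a)
  exact ⟨g, hg, b.isLin_of_w hZ (by rw [hg]; exact ext_isLin N a)⟩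

end compl

end Vale.Agent.P221.T
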