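import Vale.Agent.P221.T.H817.Comm
import Vale.Agent.P221.T.H509.KKT

/-!
# P221, part T: `PComm v` for every family of classes of a commutative monoid
-/

open CategoryTheory MonoidalCategory MonObj Limits Pretriangulated
open Vale.Agent.P251.T Vale.Agent.P251.M Vale.Agent.P251.S

set_option linter.unusedSectionVars false

universe u

namespace Vale.Agent.P221.T

variable {𝒯 : Type u} [Category.{0} 𝒯] [Preadditive 𝒯] [HasZeroObject 𝒯]
    [HasShift 𝒯 ℤ] [∀ n : ℤ, (shiftFunctor 𝒯 n).Additive] [Pretriangulated 𝒯] [IsTriangulated 𝒯]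
    [MonoidalCategory 𝒯] [SymmetricCategory 𝒯] [TensorTriangulated 𝒯] [MonoidalClosed 𝒯]
    [HasCoproducts.{0} 𝒯] [HasProducts.{0} 𝒯] [StableCat 𝒯]

/-- the hypothesis of `H509.kkT` -/
theorem pComm {p : ℕ} [Fact p.Prime] {R : 𝒯} [MonObj R] [IsCommMonObj R]
    (v : ∀ i : ℕ, (𝟙_ 𝒯)⟦sV p (i + 1)⟧ ⟶ R) : H509.PComm v := by
  intro Y M i j k k₁ k₂ k' h₁ h₁' h₂ h₂' y
  exact mul_v_comm v M j i y h₁ h₁' h₂ h₂'

end Vale.Agent.P221.T
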