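import Vale.Agent.P221.T.H817.FreeP
import Vale.Agent.P221.T.H598.BPSex
import Vale.Agent.P221.T.H924.FreeTop

/-!
# P221, part T: the homotopy of the completion of the Brown-Peterson monoid is free on the unit
-/

open CategoryTheory MonoidalCategory MonObj Limits Pretriangulated

set_option linter.unusedSectionVars false

universe v u

namespace Vale.Agent.P221.T.H817

open Vale.Agent.P251 Vale.Agent.P251.S Vale.Agent.P251.T Vale.Agent.P251.M Vale.Agent.P251.F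
  Vale.Agent.P251.I EvenSpheres Vale.Agent.P257.H80 Vale.Agent.P093.Nak
  Vale.Agent.P093.N.HH

open Vale.Agent.P251.X hiding lawOf
open Vale.Agent.P221.T Vale.Agent.P221.H246
open Vale.Agent.P221.T.H924 (CompD)
open Vale.Agent.P221.T.H509 (kkT kkT_v kkT_C kkT_lin)

variable {𝒯 : Type u} [Category.{0} 𝒯] [Preadditive 𝒯] [HasZeroObject 𝒯]
    [HasShift 𝒯 ℤ] [∀ n : ℤ, (shiftFunctor 𝒯 n).Additive] [Pretriangulated 𝒯] [IsTriangulated 𝒯]
    [MonoidalCategory 𝒯] [SymmetricCategory 𝒯] [TensorTriangulated 𝒯] [MonoidalClosed 𝒯]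
    [HasCoproducts.{0} 𝒯] [HasProducts.{0} 𝒯] [StableCat 𝒯]

variable {D : MUData 𝒯} {F : SpaceFunctor 𝒯} {e : F.S.obj CCF ≅ (stdEven 𝒯).L}
  {p : ℕ} [hp : Fact p.Prime] {B P W : 𝒯} [MonObj B] [IsCommMonObj B]
  {b : D.R ⟶ B} [IsMonHom b] {Φ : MvPolynomial ℕ ℤ →+* HRing (stdEven 𝒯) B}

/-- **the homotopy of the completion `P`** -/
theorem freeP (hD : MUUniv e D) (hA : Vale.Agent.P093.N0.MUAll D) (hb : IsBPMon p b)
    (hΦ : lawOf b = (haz p).map Φ) (cd : CompD p B P W) : H598.FreeP Φ cd := by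
  have hcg := cg_P hD hA hb cd.cP cd.c_mod
  have hs := surjZ_P hD hA hb hΦ cd.c_lin (kkT (pComm (vcl p Φ)) cd.MP cd.cP)
    (fun i _ _ h y => kkT_v (pComm (vcl p Φ)) cd.MP cd.cP i h y) hcg
  have hi := injZ_P hD hA hb hΦ cd.c_lin (kkT (pComm (vcl p Φ)) cd.MP cd.cP)
    (fun i _ _ h y => kkT_v (pComm (vcl p Φ)) cd.MP cd.cP i h y) hcg
  refine H924.free_of cd.MP (vcl p Φ) (kkT (pComm (vcl p Φ)) cd.MP cd.cP)
    (fun i _ _ h y => kkT_v (pComm (vcl p Φ)) cd.MP cd.cP i h y)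
    (fun a _ y => kkT_C (pComm (vcl p Φ)) cd.MP cd.cP a y)
    (H924.hι_of p (Int.castRingHom ℤ_[p])) cd.cP (fun k z hz => hcg.tf k z ?_) _ ?_ ?_
  · rw [natCast_zsmul]
    exact hz
  · intro k z
    obtain ⟨G, z', h⟩ := hs (PiM.of P k z)
    refine ⟨G, z', ?_⟩
    rw [h, natCast_zsmul]
  · intro G z' h
    have h1 := hi G z' (by rw [h, natCast_zsmul])
    rwa [map_natCast] at h1

end Vale.Agent.P221.T.H817
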