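import Vale.Agent.P221.T.H817.A1

/-!
# P221, part T: `SpecA2`, the coordinates of `P⟦k⟧ ⟶ Y`
-/

open CategoryTheory MonoidalCategory MonObj Limits Pretriangulated
open MvPolynomial (C coeff monomial)
open Vale.Agent.P251.T Vale.Agent.P251.M Vale.Agent.P251.S

set_option linter.unusedSectionVars false
set_option linter.style.haveILetI false

universe u

namespace Vale.Agent.P221.T

variable {𝒯 : Type u} [Category.{0} 𝒯] [Preadditive 𝒯] [HasZeroObject 𝒯]
    [HasShift 𝒯 ℤ] [∀ n : ℤ, (shiftFunctor 𝒯 n).Additive] [Pretriangulated 𝒯] [IsTriangulated 𝒯]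
    [MonoidalCategory 𝒯] [SymmetricCategory 𝒯] [TensorTriangulated 𝒯] [MonoidalClosed 𝒯]
    [HasCoproducts.{0} 𝒯] [HasProducts.{0} 𝒯] [StableCat 𝒯]

namespace BPS

variable {p : ℕ} [Fact p.Prime] {R P W : 𝒯} [MonObj R] [IsCommMonObj R] (b : BPS p R P W)
  {Y : 𝒯} (M : ModStr R Y) (hY : H395.PComplete p Y)

/-- the coordinates -/
noncomputable def co (k : ℤ) : letI := b.mdl M hY; (P⟦k⟧ ⟶ Y) →+ (GG p →ₗ[KK p] PiM Y) :=
  letI := b.mdl M hY
  letI := b.mdl b.MW b.cW
  { toFun := fun a =>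
      ({ toFun := PiM.map (b.til M hY a)
         map_add' := map_add _
         map_smul' := fun f y => b.kk_lin b.MW b.cW M hY (b.til M hY a) (b.til_lin M hY a) f y } :
        PiM W →ₗ[KK p] PiM Y) ∘ₗ b.ω
    map_zero' := by
      refine LinearMap.ext fun z => ?_
      change PiM.map (b.til M hY (0 : P⟦k⟧ ⟶ Y)) (b.ω z) = 0
      have h := map_add_left (b.til M hY (0 : P⟦k⟧ ⟶ Y)) (b.til M hY (0 : P⟦k⟧ ⟶ Y)) (b.ω z)
      rw [← til_add, _root_.add_zero] at h
      exact left_eq_add.1 h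
    map_add' := fun a a' => by
      refine LinearMap.ext fun z => ?_
      change PiM.map (b.til M hY (a + a')) (b.ω z) =
        PiM.map (b.til M hY a) (b.ω z) + PiM.map (b.til M hY a') (b.ω z)
      rw [til_add, map_add_left] }

theorem co_apply (k : ℤ) (a : P⟦k⟧ ⟶ Y) (z : GG p) :
    b.co M hY k a z = PiM.map (b.til M hY a) (b.ω z) := rfl

theorem co_monomial (k : ℤ) (a : P⟦k⟧ ⟶ Y) (E : ℕ →₀ ℕ) : b.co M hY k a (monomial E 1) =
    PiM.of Y (k + dT p E) (gc rfl (b.τ E) (ext M (b.c⟦k⟧' ≫ a))) :=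
  H609.map_til_monomial b M hY a E

theorem of_inj (Y : 𝒯) (k : ℤ) : Function.Injective (PiM.of Y k) :=
  DirectSum.of_injective (β := fun k => ((𝟙_ 𝒯)⟦k⟧ ⟶ Y)) k

theorem lin_ext {f g : letI := b.mdl M hY; GG p →ₗ[KK p] PiM Y}
    (h : ∀ E, f (monomial E 1) = g (monomial E 1)) : f = g := by
  letI := b.mdl M hY
  refine (MvPolynomial.basisMonomials ℕ (KK p)).ext fun E => ?_
  rw [MvPolynomial.coe_basisMonomials]
  exact h E

theorem act_aux {m k k' : ℤ} (h : k + m = k') (γ : P⟦m⟧ ⟶ P) (a : P⟦k⟧ ⟶ Y) (z : GG p) :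
    PiM.map (b.til M hY (gc h γ a)) (b.ω z) = PiM.map (b.til M hY a) (b.ω (b.T γ z)) := by
  rw [til_gc, H609.map_gc, ω_T]

/-- **(SA2)** -/
theorem specA2 : b.SpecA2 := by
  intro n ld S O hu hT Y M hY
  letI := b.mdl M hY
  have hsmul : ∀ {k m : ℤ} {f : KK p} {y : PiM Y}, HK p m f → y ∈ PiM.gr Y k →
      f • y ∈ PiM.gr Y (k + m) := fun hf hy => H609.kk_mem b M hY hf hy
  refine ⟨{ smul_mem := hsmul
            indep := ?_
            c := b.co M hY
            inj := ?_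
            range := ?_
            act := ?_
            e := fun k => PiM.of Y k
            e_inj := fun k => of_inj Y k
            e_range := fun k y => Iff.rfl
            ev := ?_ }, fun k => rfl, fun k a z => rfl, fun k a E => b.co_monomial M hY k a E⟩
  · intro s y hy h k hk
    have hdec : ∀ (j : ℤ) (x : PiM Y), x ∈ PiM.gr Y j → ∀ i, i ≠ j → x i = 0 := by
      rintro j _ ⟨z, rfl⟩ i hij
      exact DirectSum.of_eq_of_ne (β := fun k => ((𝟙_ 𝒯)⟦k⟧ ⟶ Y)) _ _ _ hij
    have h1 : y k = PiM.of Y k ((y k) k) := by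
      obtain ⟨z, hz⟩ := hy k hk
      rw [← hz]
      congr 1
      exact (DirectSum.of_eq_same (β := fun k => ((𝟙_ 𝒯)⟦k⟧ ⟶ Y)) k z).symm
    have h2 : (y k) k = (∑ j ∈ s, y j) k := by
      rw [DirectSum.sum_apply, Finset.sum_eq_single k]
      · intro j hj hjk
        exact hdec j _ (hy j hj) k (Ne.symm hjk)
      · intro hk'
        exact absurd hk hk'
    rw [h1, h2, h]
    exact map_zero _
  · intro k
    refine (injective_iff_map_eq_zero (b.co M hY k)).2 fun a ha => ?_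
    have h1 : ∀ E, gc rfl (b.τ E) (ext M (b.c⟦k⟧' ≫ a)) = 0 := fun E => by
      refine of_inj Y _ ?_
      refine (b.co_monomial M hY k a E).symm.trans ?_
      rw [ha, map_zero]
      rfl
    obtain ⟨a', -, h2⟩ := b.basis M hY k (fun E => 0)
    have h3 : b.c⟦k⟧' ≫ a = a' := h2 _ h1
    have h4 : (0 : R⟦k⟧ ⟶ Y) = a' := h2 _ fun E => by rw [ext_zero, gc_zero_right]
    refine b.ext_c hY ?_
    rw [h3, ← h4, comp_zero]
  · intro k ζ
    constructor
    · rintro ⟨a, rfl⟩ E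
      exact ⟨_, (b.co_monomial M hY k a E).symm⟩
    · intro h
      choose y hy using h
      obtain ⟨a', h1, -⟩ := b.basis M hY k y
      obtain ⟨a, ha⟩ := b.exists_ext_c hY a'
      refine ⟨a, b.lin_ext M hY fun E => ?_⟩
      refine (b.co_monomial M hY k a E).trans ?_
      rw [ha, h1 E]
      exact hy E
  · intro k m k' h a γ
    refine LinearMap.ext fun z => ?_
    change PiM.map (b.til M hY (gc h γ a)) (b.ω z) =
      PiM.map (b.til M hY a) (b.ω (O.T m γ z))
    rw [show O.T m γ = b.T γ from hT m γ]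
    exact b.act_aux M hY h γ a z
  · intro k a
    refine ((H609.map_til_one b M hY a).trans ?_).symm
    change PiM.of Y k _ = PiM.of Y k (S.u⟦k⟧' ≫ a)
    rw [hu]

end BPS

end Vale.Agent.P221.T
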