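import Vale.Agent.P221.T.Src
import Vale.Agent.P221.T.H598.SB1
import Vale.Agent.P221.T.H609.SB2
import Vale.Agent.P221.T.H817.A2

/-!
# P221, part T: `SpecSrc`
-/

open CategoryTheory MonoidalCategory MonObj Limits Pretriangulated
open Vale.Agent.P251.T Vale.Agent.P251.M Vale.Agent.P251.S

universe u

namespace Vale.Agent.P221.T

variable {𝒯 : Type u} [Category.{0} 𝒯] [Preadditive 𝒯] [HasZeroObject 𝒯]
    [HasShift 𝒯 ℤ] [∀ n : ℤ, (shiftFunctor 𝒯 n).Additive] [Pretriangulated 𝒯] [IsTriangulated 𝒯]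
    [MonoidalCategory 𝒯] [SymmetricCategory 𝒯] [TensorTriangulated 𝒯] [MonoidalClosed 𝒯]
    [HasCoproducts.{0} 𝒯] [HasProducts.{0} 𝒯] [StableCat 𝒯]

/-- **`SpecSrc`** -/
theorem specSrc (p n : ℕ) [Fact p.Prime] : SpecSrc p n 𝒯 :=
  specSrc_of p n fun _ _ _ _ _ b => by
    have A1 := b.specA1
    have B1 := H598.specB1 b A1
    exact ⟨A1, b.specA2, B1, H609.specB2 b A1 B1⟩

end Vale.Agent.P221.T
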