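import Vale.Agent.P221.H903.R1

/-!
# P221, part (E3): the quotient `ℤ_p[v_1, v_2, …] ⟶ ℤ_p[v_1, …, v_n]`

* `piN p n` : `v_{i+1} ↦ v_{i+1}` for `i < n`, `v_{i+1} ↦ 0` for `i ≥ n`;
* `exists_of_piN_zero` : its kernel, homogeneous elements;
* `eq_zero_of_pow` : an element of `ℤ_p[v_1, …, v_n]` divisible by all powers of `p` vanishes.
-/

open MvPolynomial

namespace Vale.Agent.P221.T.H817

open Vale.Agent.P221.H903

variable (p n : ℕ) [hp : Fact p.Prime]

/-- `v_{i+1} ↦ v_{i+1}` for `i < n`, `v_{i+1} ↦ 0` for `i ≥ n` -/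
noncomputable def piN : KK p →+* MvPolynomial (Fin n) ℤ_[p] :=
  eval₂Hom C fun i => if h : i < n then X ⟨i, h⟩ else 0

@[simp] theorem piN_C (a : ℤ_[p]) : piN p n (C a) = C a := eval₂Hom_C _ _ _

theorem piN_X_lt {i : ℕ} (h : i < n) : piN p n (X i) = X ⟨i, h⟩ := by
  rw [piN, eval₂Hom_X', dif_pos h]

theorem piN_X_ge {i : ℕ} (h : n ≤ i) : piN p n (X i) = 0 := by
  rw [piN, eval₂Hom_X', dif_neg (not_lt.2 h)]

theorem piN_rename (f : MvPolynomial (Fin n) ℤ_[p]) :
    piN p n (rename (fun i : Fin n => (i : ℕ)) f) = f := by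
  induction f using MvPolynomial.induction_on with
  | C a => rw [rename_C, piN_C]
  | add f g hf hg => rw [map_add, map_add, hf, hg]
  | mul_X f i hf => rw [map_mul, map_mul, hf, rename_X, piN_X_lt p n i.2]

theorem sub_rename_mem (g : KK p) : g - rename (fun i : Fin n => (i : ℕ)) (piN p n g) ∈
    Ideal.span (Set.range fun l : ℕ => (X (n + l) : KK p)) := by
  rw [← Ideal.Quotient.eq]
  induction g using MvPolynomial.induction_on with
  | C a => rw [piN_C, rename_C]
  | add f g hf hg => rw [map_add, map_add, map_add, map_add, hf, hg]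
  | mul_X f i hf =>
    rw [map_mul, map_mul, map_mul, map_mul, hf]
    congr 1
    by_cases h : i < n
    · rw [piN_X_lt p n h, rename_X]
    · rw [piN_X_ge p n (not_lt.1 h), map_zero, map_zero, Ideal.Quotient.eq_zero_iff_mem]
      exact Ideal.subset_span ⟨i - n, by
        change X (n + (i - n)) = X i
        rw [Nat.add_sub_cancel' (not_lt.1 h)]⟩

/-- the kernel of `piN` -/
theorem exists_of_piN_zero {k : ℤ} {g : KK p} (hg : HK p k g) (h : piN p n g = 0) :
    ∃ (m : ℕ) (w : ℕ → KK p), (∀ l, HK p (k - dd p n l) (w l)) ∧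
      g = ∑ l ∈ Finset.range m, X (n + l) * w l := by
  have h1 : g ∈ Ideal.span (Set.range fun l : ℕ => (X (n + l) : KK p)) := by
    have := sub_rename_mem p n g
    rwa [h, map_zero, sub_zero] at this
  have key : ∃ m : ℕ, g ∈ Ideal.span ((fun l : ℕ => (X (n + l) : KK p)) '' {l | l < m}) := by
    clear h hg
    induction h1 using Submodule.span_induction with
    | mem f hf =>
      obtain ⟨l, rfl⟩ := hf
      exact ⟨l + 1, Ideal.subset_span ⟨l, Nat.lt_succ_self l, rfl⟩⟩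
    | zero => exact ⟨0, Ideal.zero_mem _⟩
    | add f g _ _ hf hg =>
      obtain ⟨a, ha⟩ := hf
      obtain ⟨b, hb⟩ := hg
      refine ⟨max a b, Ideal.add_mem _ (Ideal.span_mono (Set.image_mono ?_) ha)
        (Ideal.span_mono (Set.image_mono ?_) hb)⟩
      · intro l hl
        exact lt_of_lt_of_le hl (le_max_left a b)
      · intro l hl
        exact lt_of_lt_of_le hl (le_max_right a b)
    | smul c f _ hf =>
      obtain ⟨a, ha⟩ := hf
      exact ⟨a, Ideal.mul_mem_left _ c ha⟩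
  obtain ⟨m, hm⟩ := key
  obtain ⟨w, hw⟩ := (mem_span_image_range _ m g).1 hm
  refine ⟨m, fun l => cmp p (k - dd p n l) (w l), fun l => cmp_hk p _ _, ?_⟩
  have h2 := congrArg (cmp p k) hw
  rw [cmp_same p hg, map_sum] at h2
  rw [h2]
  refine Finset.sum_congr rfl fun l _ => ?_
  refine cmp_mul p ?_ _
  have h3 := isWeightedHomogeneous_X ℤ_[p] (fun i => sV p (i + 1)) (n + l)
  have h4 : sV p (n + l + 1) = dd p n l := by
    unfold dd
    congr 1
    ring
  rw [← h4]
  exact h3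

/-- degrees -/
theorem hk_X (l : ℕ) : HK p (dd p n l) (X (n + l) : KK p) := by
  have h3 := isWeightedHomogeneous_X ℤ_[p] (fun i => sV p (i + 1)) (n + l)
  have h4 : sV p (n + l + 1) = dd p n l := by
    unfold dd
    congr 1
    ring
  rw [← h4]
  exact h3

/-- `p`-adic separation -/
theorem eq_zero_of_pow {σ : Type} (f : MvPolynomial σ ℤ_[p])
    (h : ∀ r : ℕ, ∃ a, f = (p : MvPolynomial σ ℤ_[p]) ^ r * a) : f = 0 := by
  ext μ
  rw [coeff_zero]
  by_contra hne
  have h1 : ∀ r : ℕ, ‖coeff μ f‖ ≤ (p : ℝ) ^ (-r : ℤ) := by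
    intro r
    obtain ⟨a, ha⟩ := h r
    rw [PadicInt.norm_le_pow_iff_mem_span_pow, Ideal.mem_span_singleton]
    refine ⟨coeff μ a, ?_⟩
    have h2 : (p : MvPolynomial σ ℤ_[p]) ^ r = C ((p : ℤ_[p]) ^ r) := by
      rw [map_pow, map_natCast]
    rw [ha, h2, coeff_C_mul]
  have h2 : 0 < ‖coeff μ f‖ := norm_pos_iff.2 hne
  have h3 : (1 : ℝ) < p := by exact_mod_cast hp.out.one_lt
  obtain ⟨r, hr⟩ := exists_pow_lt_of_lt_one h2 (inv_lt_one_of_one_lt₀ h3)
  have h4 := h1 r
  rw [zpow_neg, zpow_natCast, ← inv_pow] at h4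
  exact absurd h4 (not_le.2 hr)

end Vale.Agent.P221.T.H817
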