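import Vale.Agent.P221.T.H817.H1P
import Vale.Agent.P221.T.H598.BB
import Vale.Agent.P221.H136.LeadT

/-!
# P221, part (E3-2): `h1P`
-/

open CategoryTheory MonoidalCategory MonObj Limits Pretriangulated
open Vale.Agent.P251.T Vale.Agent.P251.S Vale.Agent.P221.H395 Vale.Agent.P221.H903

set_option linter.unusedSectionVars false

universe u

namespace Vale.Agent.P221.T.H817

theorem bbH1 (p n : ℕ) [Fact p.Prime] : BBH1 p n := by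
  intro ld S O m c hc ψ hψ hcomm
  obtain ⟨φ, h1, h2⟩ := Vale.Agent.P221.T.H598.bb_H1 O m c hc ψ
    (fun l hl E => H598.mem_Ag.2 (hψ l hl E)) hcomm
  exact ⟨φ, fun E => H598.mem_Ag.1 (h1 E), h2⟩

variable {𝒯 : Type u} [Category.{0} 𝒯] [Preadditive 𝒯] [HasZeroObject 𝒯]
    [HasShift 𝒯 ℤ] [∀ n : ℤ, (shiftFunctor 𝒯 n).Additive] [Pretriangulated 𝒯] [IsTriangulated 𝒯]
    [MonoidalCategory 𝒯] [SymmetricCategory 𝒯] [TensorTriangulated 𝒯] [MonoidalClosed 𝒯]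
    [HasCoproducts.{0} 𝒯] [HasProducts.{0} 𝒯] [StableCat 𝒯]

variable {p n : ℕ} [hp : Fact p.Prime] {R P W : 𝒯} [MonObj R] [IsCommMonObj R] (b : BPS p R P W)

/-- **(E3-2)** -/
theorem h1P {C : 𝒯} {i : 𝟙_ 𝒯 ⟶ C} {δ : C ⟶ (𝟙_ 𝒯)⟦(1 : ℤ)⟧}
    (hC : Triangle.mk ((p : ℤ) • 𝟙 (𝟙_ 𝒯)) i δ ∈ distTriang 𝒯) {x : ∀ l, P⟦dd p n l⟧ ⟶ P}
    (hx : ∀ l, b.c⟦dd p n l⟧' ≫ x l =
      hat b.MP (b.cls (dd p n l) (MvPolynomial.X (n + l)))) :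
    H1P p C x b.cP := by
  obtain ⟨ld⟩ := Vale.Agent.P221.H136.specLead p n
  exact h1P_of b (bbH1 p n) ld hC hx

end Vale.Agent.P221.T.H817
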