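import Vale.Agent.P221.T.SrcDef
import Vale.Agent.P221.T.H609.SB2a
import Vale.Agent.P221.T.H817.Lin

/-!
# P221, part T: `SpecA1`, the action of the operations on `π_* W`
-/

open CategoryTheory MonoidalCategory MonObj Limits Pretriangulated
open MvPolynomial (C coeff monomial)
open Vale.Agent.P251.T Vale.Agent.P251.M Vale.Agent.P251.S

set_option linter.unusedSectionVars false

universe u

namespace Vale.Agent.P221.T

variable {𝒯 : Type u} [Category.{0} 𝒯] [Preadditive 𝒯] [HasZeroObject 𝒯]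
    [HasShift 𝒯 ℤ] [∀ n : ℤ, (shiftFunctor 𝒯 n).Additive] [Pretriangulated 𝒯] [IsTriangulated 𝒯]
    [MonoidalCategory 𝒯] [SymmetricCategory 𝒯] [TensorTriangulated 𝒯] [MonoidalClosed 𝒯]
    [HasCoproducts.{0} 𝒯] [HasProducts.{0} 𝒯] [StableCat 𝒯]

namespace BPS

variable {p : ℕ} [Fact p.Prime] {R P W : 𝒯} [MonObj R] [IsCommMonObj R] (b : BPS p R P W)

/-- `til a` is linear -/
theorem til_lin {Y : 𝒯} (M : ModStr R Y) (hY : H395.PComplete p Y) {k : ℤ} (a : P⟦k⟧ ⟶ Y) :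
    IsLin b.MW M (b.til M hY a) :=
  b.isLin_of_w hY (by rw [b.w_til]; exact ext_isLin M _)

theorem free_whiskerLeft {X Y : 𝒯} (f : X ⟶ Y) :
    (ModStr.free R X).act ≫ (R ◁ f) = (R ◁ (R ◁ f)) ≫ (ModStr.free R Y).act := by
  change ((α_ R R X).inv ≫ (μ[R] ▷ X)) ≫ (R ◁ f) = (R ◁ (R ◁ f)) ≫ (α_ R R Y).inv ≫ (μ[R] ▷ Y)
  rw [associator_inv_naturality_right_assoc, Category.assoc, whisker_exchange]

/-- uniqueness of extensions to `R ⊗ (R ⊗ P)` -/
theorem cRR_unique {Z : 𝒯} (hZ : H395.PComplete p Z) {f g : R ⊗ (R ⊗ P) ⟶ Z}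
    (h : (R ◁ (R ◁ b.c)) ≫ f = (R ◁ (R ◁ b.c)) ≫ g) : f = g := by
  have h1 := (b.c_bij0 (R ⊗ R) Z hZ).1 (a₁ := (α_ R R P).hom ≫ f) (a₂ := (α_ R R P).hom ≫ g) (by
    dsimp only
    rw [associator_naturality_right_assoc, associator_naturality_right_assoc, h])
  exact (cancel_epi (α_ R R P).hom).1 h1

/-- `w'` is linear -/
theorem w'_lin : (ModStr.free R P).IsLinear b.MW b.w' := by
  have h2 : (ModStr.free R R).act ≫ b.w = (R ◁ b.w) ≫ b.MW.act := b.w_lin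
  have h3 : (R ◁ (R ◁ b.c)) ≫ (R ◁ b.w') = R ◁ b.w := by
    rw [← MonoidalCategory.whiskerLeft_comp, b.c_w']
  refine b.cRR_unique b.cW ?_
  rw [← Category.assoc, ← free_whiskerLeft, Category.assoc, b.c_w', h2, reassoc_of% h3]

/-- `Wm γ` is a linear extension -/
theorem Wm_eq {m : ℤ} (γ : P⟦m⟧ ⟶ P) :
    b.Wm γ = b.til b.MW b.cW (γ ≫ ModStr.unitMap R P ≫ b.w') := by
  apply b.wext_unique b.cW
  rw [w_Wm, w_til, shift_ext]
  congr 1
  have h1 : b.w' = (R ◁ (ModStr.unitMap R P ≫ b.w')) ≫ b.MW.act :=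
    (b.MW.ext_unitMap b.w' b.w'_lin).symm
  conv_lhs => rw [h1]
  unfold ext
  rw [fm_comp, Category.assoc]
  rfl

theorem Wm_lin {m : ℤ} (γ : P⟦m⟧ ⟶ P) : IsLin b.MW b.MW (b.Wm γ) := by
  rw [Wm_eq]
  exact b.til_lin _ _ _

/-! ### `ω` is bijective -/

theorem ω_mem_gr {k : ℤ} {g : GG p} (hg : ∀ E, HK p (k - dT p E) (coeff E g)) :
    b.ω g ∈ PiM.gr W k := by
  rw [ω_apply]
  refine AddSubgroup.sum_mem _ fun E _ => ?_
  have h1 := H609.kk_mem b b.MW b.cW (hg E) (k := dT p E)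
    (y := PiM.of W (dT p E) (b.τ E ≫ b.w)) ⟨_, rfl⟩
  rwa [add_sub_cancel] at h1

theorem exists_ω {k : ℤ} {y : PiM W} (hy : y ∈ PiM.gr W k) :
    ∃ g : GG p, (∀ E, HK p (k - dT p E) (coeff E g)) ∧ b.ω g = y := by
  obtain ⟨z, rfl⟩ := hy
  obtain ⟨g, ⟨h1, h2⟩, -⟩ := b.freeW k z
  exact ⟨g, h1, by rw [ω_apply, h2]⟩

theorem ω_inj_homog {k : ℤ} {g g' : GG p} (hg : ∀ E, HK p (k - dT p E) (coeff E g))
    (hg' : ∀ E, HK p (k - dT p E) (coeff E g')) (h : b.ω g = b.ω g') : g = g' := by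
  obtain ⟨z, hz⟩ := b.ω_mem_gr hg
  obtain ⟨g0, -, h2⟩ := b.freeW k z
  rw [h2 g ⟨hg, by rw [← ω_apply]; exact hz⟩, h2 g' ⟨hg', by rw [← ω_apply, ← h]; exact hz⟩]

open Classical in
/-- the inverse of `ω` in degree `k` -/
noncomputable def invk (k : ℤ) : ((𝟙_ 𝒯)⟦k⟧ ⟶ W) →+ GG p where
  toFun z := (b.exists_ω (k := k) (y := PiM.of W k z) ⟨z, rfl⟩).choose
  map_zero' := by
    have h := (b.exists_ω (k := k) (y := PiM.of W k 0) ⟨0, rfl⟩).choose_spec
    refine b.ω_inj_homog (k := k) h.1 (fun E => ?_) (by rw [h.2, map_zero, map_zero])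
    rw [MvPolynomial.coeff_zero]
    exact MvPolynomial.isWeightedHomogeneous_zero _ _ _
  map_add' x y := by
    have h := (b.exists_ω (k := k) (y := PiM.of W k (x + y)) ⟨x + y, rfl⟩).choose_spec
    have hx := (b.exists_ω (k := k) (y := PiM.of W k x) ⟨x, rfl⟩).choose_spec
    have hy := (b.exists_ω (k := k) (y := PiM.of W k y) ⟨y, rfl⟩).choose_spec
    refine b.ω_inj_homog (k := k) h.1 (fun E => ?_) (by rw [h.2, map_add, map_add, hx.2, hy.2])
    rw [MvPolynomial.coeff_add]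
    exact (hx.1 E).add (hy.1 E)

theorem ω_invk (k : ℤ) (z : (𝟙_ 𝒯)⟦k⟧ ⟶ W) : b.ω (b.invk k z) = PiM.of W k z :=
  (b.exists_ω (k := k) (y := PiM.of W k z) ⟨z, rfl⟩).choose_spec.2

theorem invk_homog (k : ℤ) (z : (𝟙_ 𝒯)⟦k⟧ ⟶ W) (E : ℕ →₀ ℕ) :
    HK p (k - dT p E) (coeff E (b.invk k z)) :=
  (b.exists_ω (k := k) (y := PiM.of W k z) ⟨z, rfl⟩).choose_spec.1 E

/-- the inverse of `ω` -/
noncomputable def inv : PiM W →+ GG p := DirectSum.toAddMonoid b.invk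

theorem inv_of (k : ℤ) (z : (𝟙_ 𝒯)⟦k⟧ ⟶ W) : b.inv (PiM.of W k z) = b.invk k z :=
  DirectSum.toAddMonoid_of _ _ _

theorem ω_inv (y : PiM W) : b.ω (b.inv y) = y := by
  induction y using DirectSum.induction_on with
  | zero => rw [map_zero, map_zero]
  | of k z => exact (congrArg b.ω (b.inv_of k z)).trans (b.ω_invk k z)
  | add x y hx hy => rw [map_add, map_add, hx, hy]

theorem inv_ω_homog {k : ℤ} {g : GG p} (hg : ∀ E, HK p (k - dT p E) (coeff E g)) :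
    b.inv (b.ω g) = g := by
  obtain ⟨z, hz⟩ := b.ω_mem_gr hg
  rw [← hz, inv_of]
  exact b.ω_inj_homog (k := k) (b.invk_homog k z) hg ((b.ω_invk k z).trans hz)

theorem homog_monomial (E ν : ℕ →₀ ℕ) (a : ℤ_[p]) (E' : ℕ →₀ ℕ) :
    HK p (Finsupp.weight (fun i => sV p (i + 1)) ν + dT p E - dT p E')
      (coeff E' (monomial E (monomial ν a) : GG p)) := by
  classical
  rw [MvPolynomial.coeff_monomial]
  split_ifs with h
  · subst h
    rw [add_sub_cancel_right]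
    exact MvPolynomial.isWeightedHomogeneous_monomial _ _ _ rfl
  · exact MvPolynomial.isWeightedHomogeneous_zero _ _ _

theorem inv_ω (g : GG p) : b.inv (b.ω g) = g := by
  induction g using MvPolynomial.induction_on' with
  | monomial E f =>
    induction f using MvPolynomial.induction_on' with
    | monomial ν a => exact b.inv_ω_homog (homog_monomial E ν a)
    | add f g hf hg =>
      have h : (monomial E (f + g) : GG p) = monomial E f + monomial E g := map_add _ _ _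
      rw [h, map_add, map_add, hf, hg]
  | add f g hf hg => rw [map_add, map_add, hf, hg]

theorem ω_bij : Function.Bijective b.ω :=
  Function.bijective_iff_has_inverse.2 ⟨b.inv, b.inv_ω, b.ω_inv⟩

theorem ω_mem (k : ℤ) (g : GG p) :
    (∀ E, HK p (k - dT p E) (coeff E g)) ↔ b.ω g ∈ PiM.gr W k := by
  refine ⟨b.ω_mem_gr, fun h => ?_⟩
  obtain ⟨g', h1, h2⟩ := b.exists_ω h
  rwa [← b.ω_bij.1 h2]

theorem ω_T {m : ℤ} (γ : P⟦m⟧ ⟶ P) (z : GG p) :
    b.ω (b.T γ z) = PiM.map (b.Wm γ) (b.ω z) := by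
  let _ := b.mdl b.MW b.cW
  have h : ∃ f : GG p →ₗ[KK p] GG p, ∀ z, b.ω (f z) = PiM.map (b.Wm γ) (b.ω z) := by
    let e : GG p ≃ₗ[KK p] PiM W := LinearEquiv.ofBijective b.ω b.ω_bij
    let F : PiM W →ₗ[KK p] PiM W :=
      { toFun := PiM.map (b.Wm γ)
        map_add' := map_add _
        map_smul' := fun a y => b.kk_lin b.MW b.cW b.MW b.cW (b.Wm γ) (b.Wm_lin γ) a y }
    refine ⟨e.symm.toLinearMap ∘ₗ F ∘ₗ e.toLinearMap, fun z => ?_⟩
    exact e.apply_symm_apply _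
  unfold T
  rw [dif_pos h]
  exact h.choose_spec z

theorem map_add_left {Y Z : 𝒯} {j : ℤ} (f g : Y⟦j⟧ ⟶ Z) (y : PiM Y) :
    PiM.map (f + g) y = PiM.map f y + PiM.map g y := by
  induction y using DirectSum.induction_on with
  | zero => rw [map_zero, map_zero, map_zero, add_zero]
  | of k z =>
    have h1 := H609.map_of (rfl : j + k = j + k) (f + g) z
    have h2 := H609.map_of (rfl : j + k = j + k) f z
    have h3 := H609.map_of (rfl : j + k = j + k) g z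
    unfold PiM.of at h1 h2 h3
    rw [h1, h2, h3, gc_add_right, map_add]
  | add x y hx hy => rw [map_add, map_add, map_add, hx, hy]; abel

/-- **(SA1)** -/
theorem specA1 : b.SpecA1 where
  til_lin := b.til_lin
  Wm_lin := b.Wm_lin
  ω_bij := b.ω_bij
  ω_mem := b.ω_mem
  ω_T := b.ω_T
  T_add γ γ' := by
    refine LinearMap.ext fun z => b.ω_bij.1 ?_
    rw [ω_T, Wm_add, map_add_left, LinearMap.add_apply, map_add, ω_T, ω_T]
  T_gc h γ a := by
    refine LinearMap.ext fun z => b.ω_bij.1 ?_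
    rw [ω_T, Wm_gc, H609.map_gc, LinearMap.comp_apply, ω_T, ω_T]
  T_homog {m} γ E E' := by
    refine (b.ω_mem (m + dT p E) _).2 ?_ E'
    rw [ω_T, ω_monomial, H609.map_of rfl]
    exact ⟨_, rfl⟩

end BPS

end Vale.Agent.P221.T
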