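import Vale.Agent.P221.T.H817.Lin

/-!
# P221, part T: graded commutativity in even degrees

* `csh_tensorRight` : the commutation of the shifts on the two sides of a tensor product; for even
  `b` there is no sign;
* `gc_rmul_comm` : `v w = w v` in `π_* R` if `w` is of even degree `≥ 0` and `R` is commutative;
* `mul_comm_of_even` : the products with `v` and `w` commute on every `R`-module.
-/

open CategoryTheory MonoidalCategory MonObj Limits Pretriangulated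
open Vale.Agent.P251.T Vale.Agent.P251.M Vale.Agent.P251.S

set_option linter.unusedSectionVars false

universe u

namespace Vale.Agent.P221.T

variable {𝒯 : Type u} [Category.{0} 𝒯] [Preadditive 𝒯] [HasZeroObject 𝒯]
    [HasShift 𝒯 ℤ] [∀ n : ℤ, (shiftFunctor 𝒯 n).Additive] [Pretriangulated 𝒯] [IsTriangulated 𝒯]
    [MonoidalCategory 𝒯] [SymmetricCategory 𝒯] [TensorTriangulated 𝒯] [MonoidalClosed 𝒯]
    [HasCoproducts.{0} 𝒯] [HasProducts.{0} 𝒯] [StableCat 𝒯]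

theorem comm_comm (i j : ℤ) (Z : 𝒯) : (shiftFunctorComm 𝒯 i j).hom.app Z ≫
    (shiftFunctorComm 𝒯 j i).hom.app Z = 𝟙 _ := by
  rw [← shiftFunctorComm_symm 𝒯 i j]
  exact Iso.hom_inv_id_app _ _

theorem comm_inv (i j : ℤ) (Z : 𝒯) : (shiftFunctorComm 𝒯 i j).inv.app Z =
    (shiftFunctorComm 𝒯 j i).hom.app Z := by
  rw [← shiftFunctorComm_symm 𝒯 i j]
  rfl

variable (𝒯) in
/-- the shift functors commute with the shifts -/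
@[reducible] noncomputable def shiftCS (b : ℤ) : (shiftFunctor 𝒯 b).CommShift ℤ where
  commShiftIso a := shiftFunctorComm 𝒯 a b
  commShiftIso_zero := by
    ext X
    have h1 : ((shiftFunctorZero 𝒯 ℤ).hom.app X)⟦b⟧' ≫ ((shiftFunctorZero 𝒯 ℤ).inv.app X)⟦b⟧' =
        𝟙 _ := by
      rw [← Functor.map_comp, Iso.hom_inv_id_app, CategoryTheory.Functor.map_id]
    rw [Functor.CommShift.isoZero_hom_app, shiftFunctorZero_inv_app_shift, reassoc_of% h1,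
      comm_inv]
  commShiftIso_add a a' := by
    ext X
    have h := shiftFunctorComm_hom_app_comp_shift_shiftFunctorAdd_hom_app b a a' X
    have h2 := congrArg (fun z => z ≫ (shiftFunctorComm 𝒯 a' b).hom.app (X⟦a⟧) ≫
      ((shiftFunctorComm 𝒯 a b).hom.app X)⟦a'⟧' ≫ (shiftFunctorAdd 𝒯 a a').inv.app (X⟦b⟧)) h
    have h3 : ((shiftFunctorComm 𝒯 b a).hom.app X)⟦a'⟧' ≫
        ((shiftFunctorComm 𝒯 a b).hom.app X)⟦a'⟧' = 𝟙 _ := by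
      rw [← Functor.map_comp, comm_comm, CategoryTheory.Functor.map_id]
    have h4 := comm_comm b a' (X⟦a⟧)
    simp only [Category.assoc] at h2
    rw [reassoc_of% h4, reassoc_of% h3, Iso.hom_inv_id_app] at h2
    rw [Functor.CommShift.isoAdd_hom_app, ← cancel_epi ((shiftFunctorComm 𝒯 b (a + a')).hom.app X),
      comm_comm]
    exact h2.symm

/-- `X⟦a⟧ ⊗ Y ≅ (X ⊗ Y)⟦a⟧` -/
noncomputable def rsh (a : ℤ) (X Y : 𝒯) : (X⟦a⟧) ⊗ Y ≅ (X ⊗ Y)⟦a⟧ :=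
  ((tensorRight Y).commShiftIso a).app X

theorem rsh_eq (a : ℤ) (X Y : 𝒯) : (rsh a X Y).hom =
    (β_ (X⟦a⟧) Y).hom ≫ (csh Y a X).hom ≫ ((β_ Y X).hom)⟦a⟧' := by
  have h := NatTrans.shift_app_comm (BraidedCategory.tensorLeftIsoTensorRight Y).hom a X
  change (csh Y a X).hom ≫ ((β_ Y X).hom)⟦a⟧' = (β_ Y (X⟦a⟧)).hom ≫ (rsh a X Y).hom at h
  rw [h, ← Category.assoc, SymmetricCategory.symmetry, Category.id_comp]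

theorem rsh_nat (a : ℤ) {X X' : 𝒯} (f : X ⟶ X') (Y : 𝒯) :
    (f⟦a⟧' ▷ Y) ≫ (rsh a X' Y).hom = (rsh a X Y).hom ≫ (f ▷ Y)⟦a⟧' :=
  ((tensorRight Y).commShiftIso a).hom.naturality f

theorem rsh_nat_right (a : ℤ) (X : 𝒯) {Y Y' : 𝒯} (f : Y ⟶ Y') :
    (X⟦a⟧ ◁ f) ≫ (rsh a X Y').hom = (rsh a X Y).hom ≫ (X ◁ f)⟦a⟧' :=
  (NatTrans.shift_app_comm (trMap f) a X).symm

/-- `rsh` in degree `1` -/
theorem rsh_one (X Y : 𝒯) : (rsh 1 X Y).hom = ((TensorTriangulated.e X).inv ▷ Y) ≫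
    (α_ X ((𝟙_ 𝒯)⟦(1 : ℤ)⟧) Y).hom ≫ (X ◁ sOne Y) ≫ (csh X 1 Y).hom := by
  rw [rsh_eq, csh_one, csh_one, sOne, MonoidalCategory.whiskerLeft_comp]
  have h1 : (β_ (X⟦(1 : ℤ)⟧) Y).hom ≫ (Y ◁ (TensorTriangulated.e X).inv) =
      ((TensorTriangulated.e X).inv ▷ Y) ≫ (β_ (X ⊗ ((𝟙_ 𝒯)⟦(1 : ℤ)⟧)) Y).hom :=
    (BraidedCategory.braiding_naturality_left _ _).symm
  have h2 : (TensorTriangulated.e (Y ⊗ X)).hom ≫ ((β_ Y X).hom)⟦(1 : ℤ)⟧' =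
      ((β_ Y X).hom ▷ ((𝟙_ 𝒯)⟦(1 : ℤ)⟧)) ≫ (TensorTriangulated.e (X ⊗ Y)).hom :=
    (TensorTriangulated.e_naturality _).symm
  have h3 : (β_ X Y).hom ▷ ((𝟙_ 𝒯)⟦(1 : ℤ)⟧) ≫ (β_ Y X).hom ▷ ((𝟙_ 𝒯)⟦(1 : ℤ)⟧) = 𝟙 _ := by
    rw [← comp_whiskerRight, SymmetricCategory.symmetry, id_whiskerRight]
  simp only [Category.assoc]
  rw [reassoc_of% h1, h2, BraidedCategory.braiding_tensor_left_hom]
  simp only [Category.assoc, Iso.hom_inv_id_assoc]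
  rw [reassoc_of% h3, ← MonoidalCategory.whiskerLeft_comp_assoc X (TensorTriangulated.e Y).hom,
    Iso.hom_inv_id, MonoidalCategory.whiskerLeft_id, Category.id_comp]

/-- the interchange of the shift by `1` on the left and by `b` on the right -/
theorem interchange_one {b : ℤ} (hb : SignProp 𝒯 b 1) (X Y : 𝒯) :
    (rsh 1 X (Y⟦b⟧)).hom ≫ ((csh X b Y).hom)⟦(1 : ℤ)⟧' = (csh (X⟦(1 : ℤ)⟧) b Y).hom ≫
      ((rsh 1 X Y).hom)⟦b⟧' ≫ (shiftFunctorComm 𝒯 1 b).hom.app (X ⊗ Y) := by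
  have h1 : (csh X 1 (Y⟦b⟧)).hom ≫ ((csh X b Y).hom)⟦(1 : ℤ)⟧' =
      X ◁ (shiftFunctorComm 𝒯 b 1).hom.app Y ≫ (csh X b (Y⟦(1 : ℤ)⟧)).hom ≫
        ((csh X 1 Y).hom)⟦b⟧' ≫ (shiftFunctorComm 𝒯 1 b).hom.app (X ⊗ Y) := by
    have h := (tensorLeft X).map_shiftFunctorComm_hom_app Y b 1
    change X ◁ (shiftFunctorComm 𝒯 b 1).hom.app Y = (csh X 1 (Y⟦b⟧)).hom ≫
      ((csh X b Y).hom)⟦(1 : ℤ)⟧' ≫ (shiftFunctorComm 𝒯 b 1).hom.app (X ⊗ Y) ≫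
        ((csh X 1 Y).inv)⟦b⟧' ≫ (csh X b (Y⟦(1 : ℤ)⟧)).inv at h
    rw [h]
    simp only [Category.assoc, Iso.inv_hom_id_assoc]
    rw [← Functor.map_comp_assoc, Iso.inv_hom_id, CategoryTheory.Functor.map_id,
      Category.id_comp, comm_comm]
    exact (congrArg _ (Category.comp_id _)).symm
  have h2 : sOne (Y⟦b⟧) ≫ (shiftFunctorComm 𝒯 b 1).hom.app Y =
      (csh ((𝟙_ 𝒯)⟦(1 : ℤ)⟧) b Y).hom ≫ (sOne Y)⟦b⟧' := by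
    have h := hb Y
    rw [one_smul] at h
    rw [← h]
    simp only [Category.assoc]
    rw [comm_comm]
    exact congrArg _ (Category.comp_id _)
  have h3 : ((TensorTriangulated.e X).inv ▷ (Y⟦b⟧)) ≫ (csh (X ⊗ ((𝟙_ 𝒯)⟦(1 : ℤ)⟧)) b Y).hom =
      (csh (X⟦(1 : ℤ)⟧) b Y).hom ≫ ((TensorTriangulated.e X).inv ▷ Y)⟦b⟧' :=
    (csh_tlMap _ b Y).symm
  rw [rsh_one, rsh_one]
  simp only [Category.assoc, Functor.map_comp]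
  rw [h1, ← MonoidalCategory.whiskerLeft_comp_assoc X (sOne _), h2,
    MonoidalCategory.whiskerLeft_comp_assoc, csh_nat_assoc, ← csh_associator_assoc,
    reassoc_of% h3]

section

variable (X Y : 𝒯)

/-- `csh` as a natural transformation in the left variable -/
noncomputable def cshNat (b : ℤ) (Y : 𝒯) :
    tensorRight (Y⟦b⟧) ⟶ tensorRight Y ⋙ shiftFunctor 𝒯 b where
  app X := (csh X b Y).hom
  naturality _ _ f := (csh_tlMap f b Y).symm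

/-- **The interchange law**: the shift by `a` on the left and the shift by an even `b` on the
right. -/
theorem csh_tensorRight {b : ℤ} (hb : SignProp 𝒯 b 1) (a : ℤ) (X Y : 𝒯) :
    (rsh a X (Y⟦b⟧)).hom ≫ ((csh X b Y).hom)⟦a⟧' = (csh (X⟦a⟧) b Y).hom ≫
      ((rsh a X Y).hom)⟦b⟧' ≫ (shiftFunctorComm 𝒯 a b).hom.app (X ⊗ Y) := by
  let _ := shiftCS 𝒯 b
  have h : NatTrans.CommShift (cshNat b Y) ℤ := by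
    apply natTrans_commShift_of_one
    intro X
    rw [Functor.commShiftIso_comp_hom_app]
    exact interchange_one hb X Y
  have h1 := NatTrans.shift_app_comm (cshNat b Y) a X
  rw [Functor.commShiftIso_comp_hom_app] at h1
  exact h1

end

/-! ### Commutativity -/

/-- the braiding of two spheres, one of them of even dimension `≥ 0` -/
theorem braiding_sph {l : ℤ} (hl : SignProp 𝒯 l 1) (m : ℤ) :
    (β_ ((𝟙_ 𝒯)⟦m⟧) ((𝟙_ 𝒯)⟦l⟧)).hom ≫ (tensorSph m ((𝟙_ 𝒯)⟦l⟧)).hom =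
      (tensorSph l ((𝟙_ 𝒯)⟦m⟧)).hom ≫ (shiftFunctorComm 𝒯 m l).hom.app (𝟙_ 𝒯) := by
  have h := csh_tensorRight hl m (𝟙_ 𝒯) (𝟙_ 𝒯)
  have h1 := congrArg (fun z => z ≫ (((λ_ (𝟙_ 𝒯)).hom)⟦l⟧')⟦m⟧') h
  simp only [Category.assoc] at h1
  have h2 : ((csh (𝟙_ 𝒯) l (𝟙_ 𝒯)).hom)⟦m⟧' ≫ (((λ_ (𝟙_ 𝒯)).hom)⟦l⟧')⟦m⟧' =
      ((λ_ ((𝟙_ 𝒯)⟦l⟧)).hom)⟦m⟧' := by
    rw [← Functor.map_comp, csh_leftUnitor]
  have h3 : (shiftFunctorComm 𝒯 m l).hom.app (𝟙_ 𝒯 ⊗ 𝟙_ 𝒯) ≫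
      (((λ_ (𝟙_ 𝒯)).hom)⟦l⟧')⟦m⟧' = (((λ_ (𝟙_ 𝒯)).hom)⟦m⟧')⟦l⟧' ≫
        (shiftFunctorComm 𝒯 m l).hom.app (𝟙_ 𝒯) :=
    ((shiftFunctorComm 𝒯 m l).hom.naturality (λ_ (𝟙_ 𝒯)).hom).symm
  have h4 : (rsh m (𝟙_ 𝒯) (𝟙_ 𝒯)).hom ≫ ((λ_ (𝟙_ 𝒯)).hom)⟦m⟧' = (ρ_ ((𝟙_ 𝒯)⟦m⟧)).hom := by
    rw [rsh_eq]
    simp only [Category.assoc]
    rw [← Functor.map_comp, braiding_leftUnitor, ← unitors_equal, csh_leftUnitor,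
      braiding_leftUnitor]
  have h5 : ((rsh m (𝟙_ 𝒯) (𝟙_ 𝒯)).hom)⟦l⟧' ≫ (((λ_ (𝟙_ 𝒯)).hom)⟦m⟧')⟦l⟧' =
      ((ρ_ ((𝟙_ 𝒯)⟦m⟧)).hom)⟦l⟧' := by
    rw [← Functor.map_comp, h4]
  rw [h2, h3, reassoc_of% h5, rsh_eq] at h1
  simp only [Category.assoc] at h1
  rw [← Functor.map_comp, braiding_leftUnitor] at h1
  change (β_ ((𝟙_ 𝒯)⟦m⟧) ((𝟙_ 𝒯)⟦l⟧)).hom ≫ (csh ((𝟙_ 𝒯)⟦l⟧) m (𝟙_ 𝒯)).hom ≫
    ((ρ_ ((𝟙_ 𝒯)⟦l⟧)).hom)⟦m⟧' = ((csh ((𝟙_ 𝒯)⟦m⟧) l (𝟙_ 𝒯)).hom ≫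
      ((ρ_ ((𝟙_ 𝒯)⟦m⟧)).hom)⟦l⟧') ≫ (shiftFunctorComm 𝒯 m l).hom.app (𝟙_ 𝒯)
  rw [h1, Category.assoc]

section comm

variable {R : 𝒯} [MonObj R] {X : 𝒯}

theorem gc_rmul_eq {m l k : ℤ} (h : l + m = k) (v : (𝟙_ 𝒯)⟦m⟧ ⟶ R) (w : (𝟙_ 𝒯)⟦l⟧ ⟶ R) :
    gc h v (rmul w) = (shiftFunctorAdd' 𝒯 m l k (by omega)).hom.app (𝟙_ 𝒯) ≫
      (tensorSph l ((𝟙_ 𝒯)⟦m⟧)).inv ≫ (v ▷ ((𝟙_ 𝒯)⟦l⟧)) ≫ (R ◁ w) ≫ μ[R] := by
  have h1 : rmul w = (tensorSph l R).inv ≫ (R ◁ w) ≫ μ[R] := by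
    change ((ρ_ R).inv)⟦l⟧' ≫ ((csh R l (𝟙_ 𝒯)).inv ≫ R ◁ w) ≫ μ[R] =
      (((ρ_ R).inv)⟦l⟧' ≫ (csh R l (𝟙_ 𝒯)).inv) ≫ (R ◁ w) ≫ μ[R]
    simp only [Category.assoc]
  have h2 : v⟦l⟧' ≫ (tensorSph l R).inv = (tensorSph l ((𝟙_ 𝒯)⟦m⟧)).inv ≫
      (v ▷ ((𝟙_ 𝒯)⟦l⟧)) := by
    rw [Iso.comp_inv_eq, Category.assoc, tensorSph_naturality, Iso.inv_hom_id_assoc]
  rw [gc, h1, reassoc_of% h2]

variable [IsCommMonObj R]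

/-- **Commutativity** of `π_* R`, for `w` of even degree `≥ 0`. -/
theorem gc_rmul_comm {m l k : ℤ} (hl : SignProp 𝒯 l 1) (h : l + m = k) (h' : m + l = k)
    (v : (𝟙_ 𝒯)⟦m⟧ ⟶ R) (w : (𝟙_ 𝒯)⟦l⟧ ⟶ R) : gc h v (rmul w) = gc h' w (rmul v) := by
  rw [gc_rmul_eq, gc_rmul_eq]
  have h1 : (v ▷ ((𝟙_ 𝒯)⟦l⟧)) ≫ (R ◁ w) ≫ μ[R] = (β_ ((𝟙_ 𝒯)⟦m⟧) ((𝟙_ 𝒯)⟦l⟧)).hom ≫
      (w ▷ ((𝟙_ 𝒯)⟦m⟧)) ≫ (R ◁ v) ≫ μ[R] := by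
    rw [← BraidedCategory.braiding_naturality_right_assoc, ← whisker_exchange_assoc]
    rw [← BraidedCategory.braiding_naturality_left_assoc, IsCommMonObj.mul_comm,
      whisker_exchange_assoc]
  have h2 : (shiftFunctorAdd' 𝒯 m l k (by omega)).hom.app (𝟙_ 𝒯) ≫
      (tensorSph l ((𝟙_ 𝒯)⟦m⟧)).inv ≫ (β_ ((𝟙_ 𝒯)⟦m⟧) ((𝟙_ 𝒯)⟦l⟧)).hom =
      (shiftFunctorAdd' 𝒯 l m k (by omega)).hom.app (𝟙_ 𝒯) ≫
        (tensorSph m ((𝟙_ 𝒯)⟦l⟧)).inv := by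
    have h3 := braiding_sph hl m
    have h4 : (shiftFunctorAdd' 𝒯 m l k (by omega)).hom.app (𝟙_ 𝒯) ≫
        (shiftFunctorComm 𝒯 m l).hom.app (𝟙_ 𝒯) =
          (shiftFunctorAdd' 𝒯 l m k (by omega)).hom.app (𝟙_ 𝒯) := by
      rw [shiftFunctorComm_eq 𝒯 m l k (by omega)]
      exact Iso.hom_inv_id_app_assoc _ _ _
    rw [← cancel_mono ((tensorSph m ((𝟙_ 𝒯)⟦l⟧)).hom)]
    simp only [Category.assoc, Iso.inv_hom_id, Category.comp_id]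
    rw [h3, Iso.inv_hom_id_assoc, h4]
  rw [h1, reassoc_of% h2]

/-- products with `v` and `w` commute -/
theorem mul_mul_comm (M : ModStr R X) {m l k k₁ k₂ k' : ℤ} (hl : SignProp 𝒯 l 1)
    (v : (𝟙_ 𝒯)⟦m⟧ ⟶ R) (w : (𝟙_ 𝒯)⟦l⟧ ⟶ R) (y : (𝟙_ 𝒯)⟦k⟧ ⟶ X) (h₁ : k + l = k₁)
    (h₂ : k₁ + m = k') (h₃ : k + m = k₂) (h₄ : k₂ + l = k') :
    mul M h₂ v (mul M h₁ w y) = mul M h₄ w (mul M h₃ v y) := by
  rw [mul_mul M v w y h₁ h₂ (k₂ := l + m) rfl (by omega),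
    mul_mul M w v y h₃ h₄ (k₂ := l + m) (by omega) (by omega)]
  congr 1
  exact gc_rmul_comm hl _ _ v w

end comm

theorem signProp_sV (p : ℕ) [Fact p.Prime] (i : ℕ) : SignProp 𝒯 (sV p (i + 1)) 1 := by
  have h := signProp_two_mul (T := 𝒯) (p ^ (i + 1) - 1)
  have h1 : (2 * ((p ^ (i + 1) - 1 : ℕ) : ℤ)) = sV p (i + 1) := by
    unfold sV
    rw [Nat.cast_sub (Nat.one_le_pow _ _ (Fact.out : p.Prime).pos)]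
    push_cast
    ring
  rwa [h1] at h

/-- the products with the `v i` commute -/
theorem mul_v_comm {p : ℕ} [Fact p.Prime] {R : 𝒯} [MonObj R] [IsCommMonObj R]
    (v : ∀ i : ℕ, (𝟙_ 𝒯)⟦sV p (i + 1)⟧ ⟶ R) {Y : 𝒯} (M : ModStr R Y) (i j : ℕ)
    {k k₁ k₂ k' : ℤ} (y : (𝟙_ 𝒯)⟦k⟧ ⟶ Y) (h₁ : k + sV p (j + 1) = k₁)
    (h₂ : k₁ + sV p (i + 1) = k') (h₃ : k + sV p (i + 1) = k₂) (h₄ : k₂ + sV p (j + 1) = k') :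
    mul M h₂ (v i) (mul M h₁ (v j) y) = mul M h₄ (v j) (mul M h₃ (v i) y) :=
  mul_mul_comm M (signProp_sV p j) (v i) (v j) y h₁ h₂ h₃ h₄

end Vale.Agent.P221.T
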