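import Vale.Agent.P221.T.H817.FOn2
import Vale.Agent.P221.T.H817.PiN
import Vale.Agent.P221.T.H609.SB2
import Vale.Agent.P221.T.H598.SB1

/-!
# P221, part (E3-2): the image of `[P⟦k⟧, F_1] ⟶ [P⟦k⟧, P]`

`x l = v_{n+1+l}`. The image consists of the maps all of whose coordinates lie in the kernel of
`piN`.
-/

open CategoryTheory MonoidalCategory MonObj Limits Pretriangulated
open Vale.Agent.P251.T Vale.Agent.P251.S Vale.Agent.P221.H395 Vale.Agent.P221.H903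
open MvPolynomial (coeff monomial)
open Vale.Agent.P221.T.H609 (map_of of_cls kk_mul_apply map_til_monomial)

set_option linter.unusedSectionVars false

universe u

namespace Vale.Agent.P221.T.H817

variable {𝒯 : Type u} [Category.{0} 𝒯] [Preadditive 𝒯] [HasZeroObject 𝒯]
    [HasShift 𝒯 ℤ] [∀ n : ℤ, (shiftFunctor 𝒯 n).Additive] [Pretriangulated 𝒯] [IsTriangulated 𝒯]
    [MonoidalCategory 𝒯] [SymmetricCategory 𝒯] [TensorTriangulated 𝒯] [MonoidalClosed 𝒯]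
    [HasCoproducts.{0} 𝒯] [HasProducts.{0} 𝒯] [StableCat 𝒯]

theorem gc_shiftZero' {A Q : 𝒯} {e k : ℤ} (he : e = 0) (h : e + k = k) (γ : A⟦k⟧ ⟶ Q) :
    gc h γ ((shiftFunctorZero' 𝒯 e he).hom.app Q) = γ := by
  subst he
  have h1 : (shiftFunctorZero' 𝒯 (0 : ℤ) rfl).hom.app Q =
      (shiftFunctorZero 𝒯 ℤ).hom.app Q ≫ 𝟙 Q := by
    simp [shiftFunctorZero']
  rw [h1, Vale.Agent.P221.T.gc_zero_shift, Category.comp_id]

variable {p n : ℕ} [hp : Fact p.Prime] {R P W : 𝒯} [MonObj R] [IsCommMonObj R] (b : BPS p R P W)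
  {C Z : 𝒯} {x : ∀ l, P⟦dd p n l⟧ ⟶ P} {𝔽 : FreeOn p C P (dd p n) 0 (0 + 1) Z} {D : Z ⟶ P}

/-- the multiplication by a linear map `P⟦d⟧ ⟶ P` -/
theorem gc_cls_lin {d : ℤ} {f : KK p} (hf : HK p d f) {y : P⟦d⟧ ⟶ P}
    (hy : b.c⟦d⟧' ≫ y = hat b.MP (b.cls d f)) {k k' : ℤ} (h : d + k = k') {g : KK p}
    (hg : HK p k g) : gc h (b.cls k g) y = b.cls k' (f * g) := by
  have h1 : HK p k' (f * g) := by
    rw [← h]
    exact hf.mul hg
  have hl : IsLin b.MP b.MP y := b.isLin_of_c b.cP (by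
    rw [hy]
    exact hat_isLin _ _)
  refine PiM.of_injective P k' ?_
  rw [← map_of h, of_cls b hg, b.kk_lin b.MP b.cP b.MP b.cP _ hl, of_cls b h1,
    _root_.mul_comm, kk_mul_apply]
  congr 1
  unfold BPS.unit
  rw [map_of (add_zero d), gc_unit_shift, Functor.map_comp, Category.assoc, hy,
    unit_hat, of_cls b hf]
  rfl

/-- the coordinates are the classes of `coeff 0 (T a t^E)` -/
theorem yc_eq_cls {k : ℤ} (a : P⟦k⟧ ⟶ P) (E : ℕ →₀ ℕ) :
    yc b b.MP a E = b.cls (k + dT p E) (coeff 0 (b.T a (monomial E 1))) := by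
  refine PiM.of_injective P _ ?_
  rw [of_cls b (H609.HK_coeff_T b b.specA1 a E), ← H609.T_zero b b.specA1, map_til_monomial]
  rfl

theorem sg_singleton (l : ℕ) : sg {l} l = 1 := by
  have h : ({l} : Finset ℕ).filter (· < l) = ∅ := by
    ext j
    simp only [Finset.mem_filter, Finset.mem_singleton, Finset.notMem_empty, iff_false]
    omega
  rw [sg, h, Finset.card_empty, pow_zero]

variable (hx : ∀ l, b.c⟦dd p n l⟧' ≫ x l = hat b.MP (b.cls (dd p n l) (MvPolynomial.X (n + l))))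

/-- the Koszul differential on the generators -/
theorem ι_D (h : IsKos x 𝔽 (freeOn_self b.cP) D) (l : ℕ) {m K : ℤ}
    (hk : dI (dd p n) {l} + 0 + m = K) (hk' : dd p n l + m = K) (y : (𝟙_ 𝒯)⟦m⟧ ⟶ P) :
    gc hk y (𝔽.ι {l} ≫ D) = gc hk' y (x l) := by
  have h1 : dI (dd p n) ∅ + 0 + dd p n l = dI (dd p n) {l} + 0 := by
    rw [dI_empty, dI, Finset.sum_singleton]
    ring
  have h0 : dI (dd p n) ∅ + 0 = 0 := by rw [dI_empty, add_zero]
  rw [h _ (Finset.card_singleton l), cob, Finset.sum_singleton, Pi.smul_apply,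
    Finset.erase_singleton, xop_apply _ l _ h1, FreeOn.tot_same, freeOn_self_ι, xc_apply,
    sg_singleton, one_smul, gc_assoc y (x l) _ h1 hk hk' (by rw [h0, zero_add]),
    gc_shiftZero' h0]

include hx

theorem isLin_x' (l : ℕ) : IsLin b.MP b.MP (x l) := b.isLin_of_c b.cP (by
  rw [hx]
  exact hat_isLin _ _)

/-- **(I2)** maps with coordinates in the kernel of `piN` factor through `D` -/
theorem exists_of_piN (h : IsKos x 𝔽 (freeOn_self b.cP) D) {k : ℤ} (a : P⟦k⟧ ⟶ P)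
    (ha : ∀ E, piN p n (coeff 0 (b.T a (monomial E 1))) = 0) : ∃ f : P⟦k⟧ ⟶ Z, f ≫ D = a := by
  obtain ⟨MZ, hZ⟩ := exists_mod 𝔽 b.MP
  have hD : MZ.IsLinear b.MP D :=
    kos_linear (isLin_x' b hx) hZ (isLin_self_ι b.MP b.cP) h
  have hco := fun E => H609.HK_coeff_T b b.specA1 a E
  choose m w hw hs using fun E => exists_of_piN_zero p n (hco E) (ha E)
  have hk : ∀ E l, dI (dd p n) {l} + 0 + (k + dT p E - dd p n l) = k + dT p E := fun E l => by
    rw [dI, Finset.sum_singleton]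
    ring
  obtain ⟨f, hf⟩ := exists_yc b MZ 𝔽.pc (k := k) fun E => ∑ l ∈ Finset.range (m E),
    gc (hk E l) (b.cls (k + dT p E - dd p n l) (w E l)) (𝔽.ι {l})
  refine ⟨f, yc_ext b b.MP b.cP fun E => ?_⟩
  have hX : ∀ l ∈ Finset.range (m E), HK p (k + dT p E) (MvPolynomial.X (n + l) * w E l) :=
    fun l _ => by
      have := (hk_X p n l).mul (hw E l)
      rwa [add_sub_cancel] at this
  rw [yc_comp b hD, hf, Preadditive.sum_comp, yc_eq_cls, hs E, cls_sum b _ _ hX]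
  refine Finset.sum_congr rfl fun l _ => ?_
  rw [← gc_comp, ι_D b h l (hk E l) (add_sub_cancel _ _), gc_cls_lin b (hk_X p n l) (hx l) _ (hw E l)]

variable {i : 𝟙_ 𝒯 ⟶ C} {δ : C ⟶ (𝟙_ 𝒯)⟦(1 : ℤ)⟧}
  (hC : Triangle.mk ((p : ℤ) • 𝟙 (𝟙_ 𝒯)) i δ ∈ distTriang 𝒯)

include hC

theorem piN_dvd (h : IsKos x 𝔽 (freeOn_self b.cP) D) (r : ℕ) : ∀ (K : ℤ) (y : (𝟙_ 𝒯)⟦K⟧ ⟶ Z)
    (g : KK p), HK p K g → y ≫ D = b.cls K g → ∃ a, piN p n g = (p : _) ^ r * a := by
  induction r with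
  | zero => exact fun K y g _ _ => ⟨piN p n g, by rw [pow_zero, _root_.one_mul]⟩
  | succ r ih =>
    intro K y g hg hy
    obtain ⟨m, z, hz, hyz⟩ := 𝔽.gen K (y ≫ rd i Z)
    choose f hf hfz using fun J : Finset ℕ => exists_cls_rd b hC (z J (K - (dI (dd p n) J + 0)))
    have hJ : ∀ J : Finset ℕ, dI (dd p n) J + 0 + (K - (dI (dd p n) J + 0)) = K := fun J => by ring
    have h1 : (y - ∑ J ∈ pws (0 + 1) m, gc (hJ J) (b.cls _ (f J)) (𝔽.ι J)) ≫ rd i Z = 0 := by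
      rw [Preadditive.sub_comp, hyz, Preadditive.sum_comp, sub_eq_zero]
      refine Finset.sum_congr rfl fun J _ => ?_
      rw [H903.pair, hfz, gc_rd]
    obtain ⟨y', hy'⟩ := exists_of_rd hC _ h1
    obtain ⟨g', hg', hg'y⟩ := exists_cls b (y' ≫ D)
    obtain ⟨a, ha⟩ := ih K y' g' hg' hg'y
    have h2 : ∀ J : Finset ℕ, ∃ g₁ : KK p, J ∈ pws (0 + 1) m → HK p K g₁ ∧
        gc (hJ J) (b.cls _ (f J)) (𝔽.ι J ≫ D) = b.cls K g₁ ∧ piN p n g₁ = 0 := by
      intro J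
      by_cases hm : J ∈ pws (0 + 1) m
      · obtain ⟨l, rfl⟩ := Finset.card_eq_one.1 (mem_pws.1 hm).2
        have e1 : dd p n l + (K - (dI (dd p n) {l} + 0)) = K := by
          rw [dI, Finset.sum_singleton]
          ring
        refine ⟨MvPolynomial.X (n + l) * f {l}, fun _ => ⟨?_, ?_, ?_⟩⟩
        · have := (hk_X p n l).mul (hf {l})
          rwa [e1] at this
        · rw [ι_D b h l (hJ {l}) e1, gc_cls_lin b (hk_X p n l) (hx l) e1 (hf {l})]
        · rw [map_mul, piN_X_ge p n (Nat.le_add_right n l), zero_mul]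
      · exact ⟨0, fun h => absurd h hm⟩
    choose g₁ hg₁ using h2
    have h3 : g = (p : KK p) * g' + ∑ J ∈ pws (0 + 1) m, g₁ J := by
      have h4 : HK p K (∑ J ∈ pws (0 + 1) m, g₁ J) := hk_sum p _ _ fun J hJ' => (hg₁ J hJ').1
      refine cls_inj b hg (hk_add (hk_p hg') h4) ?_
      rw [← hy, cls_add b (hk_p hg') h4, cls_p b hg', ← hg'y,
        cls_sum b _ _ fun J hJ' => (hg₁ J hJ').1]
      have h5 : y = (p : ℤ) • y' + ∑ J ∈ pws (0 + 1) m, gc (hJ J) (b.cls _ (f J)) (𝔽.ι J) := by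
        rw [hy']
        abel
      rw [h5, Preadditive.add_comp, Preadditive.zsmul_comp, Preadditive.sum_comp]
      congr 1
      refine Finset.sum_congr rfl fun J hJ' => ?_
      rw [← gc_comp]
      exact (hg₁ J hJ').2.1
    refine ⟨a, ?_⟩
    rw [h3, map_add, map_mul, map_natCast, ha, map_sum,
      Finset.sum_eq_zero fun J hJ' => (hg₁ J hJ').2.2, add_zero, pow_succ]
    ring

/-- **(I1)** the coordinates of `f ≫ D` lie in the kernel of `piN` -/
theorem piN_of_comp (h : IsKos x 𝔽 (freeOn_self b.cP) D) {k : ℤ} (f : P⟦k⟧ ⟶ Z) (E : ℕ →₀ ℕ) :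
    piN p n (coeff 0 (b.T (f ≫ D) (monomial E 1))) = 0 := by
  obtain ⟨MZ, hZ⟩ := exists_mod 𝔽 b.MP
  have hD : MZ.IsLinear b.MP D :=
    kos_linear (isLin_x' b hx) hZ (isLin_self_ι b.MP b.cP) h
  refine eq_zero_of_pow p _ fun r => piN_dvd b hx hC h r _ (yc b MZ f E) _
    (H609.HK_coeff_T b b.specA1 (f ≫ D) E) ?_
  rw [← yc_comp b hD, yc_eq_cls]

end Vale.Agent.P221.T.H817
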