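import Vale.Agent.P221.H903.E3
import Vale.Agent.P221.T.H817.Lin

/-!
# P221, part (E3): completed free objects as modules

For `𝔽 : FreeOn p C P d n c Z` and a module structure on `P`:

* `FreeOn.desc_tensor`, `FreeOn.ext_tensor` : maps out of `A ⊗ Z`;
* `FreeOn.exists_mod` : the module structure on `Z`;
* `FreeOn.isLinear` : linear maps out of `Z`.
-/

open CategoryTheory MonoidalCategory MonObj Limits Pretriangulated
open Vale.Agent.P251.T Vale.Agent.P251.S Vale.Agent.P221.H395 Vale.Agent.P221.H903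

set_option linter.unusedSectionVars false

universe u

namespace Vale.Agent.P221.T.H817

variable {𝒯 : Type u} [Category.{0} 𝒯] [Preadditive 𝒯] [HasZeroObject 𝒯]
    [HasShift 𝒯 ℤ] [∀ n : ℤ, (shiftFunctor 𝒯 n).Additive] [Pretriangulated 𝒯] [IsTriangulated 𝒯]
    [MonoidalCategory 𝒯] [SymmetricCategory 𝒯] [TensorTriangulated 𝒯] [MonoidalClosed 𝒯]
    [HasCoproducts.{0} 𝒯] [HasProducts.{0} 𝒯] [StableCat 𝒯]

variable {p : ℕ}

/-- internal homs into `p`-complete objects are `p`-complete -/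
theorem pComplete_ihom (A : 𝒯) {Y : 𝒯} (hY : PComplete p Y) : PComplete p ((ihom A).obj Y) := by
  intro V hV f
  apply MonoidalClosed.uncurry_injective
  have h1 : IsIso ((p : ℤ) • 𝟙 (A ⊗ V)) := isIso_p_map hV (tensorLeft A)
  rw [hY _ h1 (MonoidalClosed.uncurry f), hY _ h1 (MonoidalClosed.uncurry 0)]

section free

variable {C P : 𝒯} {d : ℕ → ℤ} {n : ℤ} {c : ℕ} {Z : 𝒯} (𝔽 : FreeOn p C P d n c Z)

include 𝔽

theorem desc_tensor (A : 𝒯) {Y : 𝒯} (hY : PComplete p Y)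
    (a : ∀ J : Finset ℕ, A ⊗ (P⟦dI d J + n⟧) ⟶ Y) :
    ∃ f : A ⊗ Z ⟶ Y, ∀ J, J.card = c → (A ◁ 𝔽.ι J) ≫ f = a J := by
  obtain ⟨g, hg⟩ := 𝔽.desc (pComplete_ihom A hY) fun J => MonoidalClosed.curry (a J)
  refine ⟨MonoidalClosed.uncurry g, fun J hJ => ?_⟩
  rw [← MonoidalClosed.uncurry_natural_left, hg J hJ, MonoidalClosed.uncurry_curry]

theorem ext_tensor (A : 𝒯) {Y : 𝒯} (hY : PComplete p Y) {f g : A ⊗ Z ⟶ Y}
    (h : ∀ J, J.card = c → (A ◁ 𝔽.ι J) ≫ f = (A ◁ 𝔽.ι J) ≫ g) : f = g := by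
  apply MonoidalClosed.curry_injective
  refine 𝔽.ext (pComplete_ihom A hY) fun J hJ => ?_
  rw [← MonoidalClosed.curry_natural_left, ← MonoidalClosed.curry_natural_left, h J hJ]

end free

/-! ### shifted modules -/

variable {R : 𝒯} [MonObj R]

/-- the module structure on `X⟦e⟧` -/
noncomputable def shiftMod {X : 𝒯} (M : ModStr R X) (e : ℤ) : ModStr R (X⟦e⟧) where
  act := (csh R e X).hom ≫ (M.act)⟦e⟧'
  one_act := by
    rw [← csh_tlMap_assoc, ← Functor.map_comp, M.one_act, csh_leftUnitor]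
  mul_act := by
    rw [← csh_tlMap_assoc, ← Functor.map_comp, M.mul_act, Functor.map_comp, Functor.map_comp,
      csh_associator_assoc, MonoidalCategory.whiskerLeft_comp, Category.assoc, csh_nat_assoc]

/-- maps of degree `e` are linear iff they are linear for the shifted structure -/
theorem isLin_iff_shift {X Y : 𝒯} {M : ModStr R X} {N : ModStr R Y} {e : ℤ} {f : X⟦e⟧ ⟶ Y} :
    IsLin M N f ↔ (shiftMod M e).IsLinear N f := by
  rw [isLin_iff]
  change _ ↔ ((csh R e X).hom ≫ (M.act)⟦e⟧') ≫ f = (R ◁ f) ≫ N.act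
  rw [Category.assoc]

/-- the linear maps of degree `e` -/
noncomputable def linSub {X Y : 𝒯} (M : ModStr R X) (N : ModStr R Y) (e : ℤ) :
    AddSubgroup (X⟦e⟧ ⟶ Y) where
  carrier := {f | IsLin M N f}
  zero_mem' := IsLin.zero M N e
  add_mem' := fun {_ _} hf hg => hf.add hg
  neg_mem' := fun {f} hf => by
    change IsLin M N (-f)
    unfold IsLin at hf ⊢
    have h1 : ext N (f + -f) = ext N f + ext N (-f) := ext_add N f (-f)
    rw [add_neg_cancel, ext_zero, hf] at h1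
    rw [Preadditive.comp_neg]
    exact (neg_eq_of_add_eq_zero_right h1.symm).symm

theorem mem_linSub {X Y : 𝒯} {M : ModStr R X} {N : ModStr R Y} {e : ℤ} {f : X⟦e⟧ ⟶ Y} :
    f ∈ linSub M N e ↔ IsLin M N f := Iff.rfl

section mod

variable {C P : 𝒯} {d : ℕ → ℤ} {n : ℤ} {c : ℕ} {Z : 𝒯} (𝔽 : FreeOn p C P d n c Z)
  (MP : ModStr R P)

/-- **the module structure on a completed free object** -/
theorem exists_mod : ∃ MZ : ModStr R Z, ∀ J, J.card = c → IsLin MP MZ (𝔽.ι J) := by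
  obtain ⟨α, hα⟩ := desc_tensor 𝔽 R 𝔽.pc fun J => (shiftMod MP (dI d J + n)).act ≫ 𝔽.ι J
  refine ⟨⟨α, ?_, ?_⟩, fun J hJ => isLin_iff_shift.2 (hα J hJ).symm⟩
  · refine ext_tensor 𝔽 _ 𝔽.pc fun J hJ => ?_
    rw [whisker_exchange_assoc, hα J hJ, ← Category.assoc, (shiftMod MP (dI d J + n)).one_act,
      leftUnitor_naturality]
  · refine ext_tensor 𝔽 _ 𝔽.pc fun J hJ => ?_
    rw [whisker_exchange_assoc, hα J hJ, ← Category.assoc, (shiftMod MP (dI d J + n)).mul_act,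
      associator_naturality_right_assoc, ← MonoidalCategory.whiskerLeft_comp_assoc, hα J hJ,
      MonoidalCategory.whiskerLeft_comp]
    simp only [Category.assoc, hα J hJ]

variable {𝔽 MP} {MZ : ModStr R Z} (hι : ∀ J, J.card = c → IsLin MP MZ (𝔽.ι J))

include hι

/-- linear maps out of a completed free object -/
theorem isLinear_of_ι {Y : 𝒯} {N : ModStr R Y} (hY : PComplete p Y) {g : Z ⟶ Y}
    (hg : ∀ J, J.card = c → IsLin MP N (𝔽.ι J ≫ g)) : MZ.IsLinear N g := by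
  refine ext_tensor 𝔽 R hY fun J hJ => ?_
  have h1 : (shiftMod MP (dI d J + n)).act ≫ 𝔽.ι J = (R ◁ 𝔽.ι J) ≫ MZ.act :=
    isLin_iff_shift.1 (hι J hJ)
  have h2 : (shiftMod MP (dI d J + n)).act ≫ 𝔽.ι J ≫ g = (R ◁ (𝔽.ι J ≫ g)) ≫ N.act :=
    isLin_iff_shift.1 (hg J hJ)
  rw [← Category.assoc, ← h1, Category.assoc, h2, MonoidalCategory.whiskerLeft_comp,
    Category.assoc]

end mod

section kos

variable {C P : 𝒯} {d : ℕ → ℤ} {n : ℤ} {c : ℕ} {Z Y : 𝒯} {𝔽 : FreeOn p C P d n (c + 1) Z}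
  {𝔾 : FreeOn p C P d n c Y} {MP : ModStr R P} {x : ∀ l, P⟦d l⟧ ⟶ P} {D : Z ⟶ Y}

/-- the Koszul differential on the generators -/
theorem kos_ι (h : IsKos x 𝔽 𝔾 D) {I : Finset ℕ} (hI : I.card = c + 1) :
    𝔽.ι I ≫ D = ∑ l ∈ I, sg I l • if hl : l ∈ I then
      gc (show dI d (I.erase l) + n + d l = dI d I + n by rw [← dI_erase d hl]; ring) (x l)
        (𝔾.ι (I.erase l)) else 0 := by
  rw [h I hI, cob, Finset.sum_apply]
  refine Finset.sum_congr rfl fun l hl => ?_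
  rw [dif_pos hl, Pi.smul_apply]
  congr 1
  rw [xop_apply _ l _ (show dI d (I.erase l) + n + d l = dI d I + n by rw [← dI_erase d hl]; ring),
    FreeOn.tot_same, xc_apply]

/-- the Koszul differentials are linear -/
theorem kos_linear (hx : ∀ l, IsLin MP MP (x l)) {MZ : ModStr R Z} {MY : ModStr R Y}
    (hZ : ∀ J, J.card = c + 1 → IsLin MP MZ (𝔽.ι J)) (hY : ∀ J, J.card = c → IsLin MP MY (𝔾.ι J))
    (h : IsKos x 𝔽 𝔾 D) : MZ.IsLinear MY D := by
  refine isLinear_of_ι hZ 𝔾.pc fun I hI => ?_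
  rw [kos_ι h hI]
  change _ ∈ linSub MP MY _
  refine AddSubgroup.sum_mem _ fun l hl => AddSubgroup.zsmul_mem _ ?_ _
  rw [dif_pos hl]
  exact (hx l).gc (hY _ (by rw [Finset.card_erase_of_mem hl, hI]; rfl)) _

end kos

end Vale.Agent.P221.T.H817
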