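import Vale.Agent.P221.T.H817.FOn
import Vale.Agent.P221.T.H817.A1
import Vale.Agent.P221.H903.R2

/-!
# P221, part (E3): coordinates of maps into completed free objects

* `isLin_self_ι` : `P` as a completed free object;
* `yc b M f E` : the coordinates of `f : P⟦k⟧ ⟶ Y`; `yc_ext`, `exists_yc`, `yc_comp`.
-/

open CategoryTheory MonoidalCategory MonObj Limits Pretriangulated
open Vale.Agent.P251.T Vale.Agent.P251.S Vale.Agent.P221.H395 Vale.Agent.P221.H903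

set_option linter.unusedSectionVars false

universe u

namespace Vale.Agent.P221.T.H817

variable {𝒯 : Type u} [Category.{0} 𝒯] [Preadditive 𝒯] [HasZeroObject 𝒯]
    [HasShift 𝒯 ℤ] [∀ n : ℤ, (shiftFunctor 𝒯 n).Additive] [Pretriangulated 𝒯] [IsTriangulated 𝒯]
    [MonoidalCategory 𝒯] [SymmetricCategory 𝒯] [TensorTriangulated 𝒯] [MonoidalClosed 𝒯]
    [HasCoproducts.{0} 𝒯] [HasProducts.{0} 𝒯] [StableCat 𝒯]

section self

variable {p : ℕ} {C P : 𝒯} {d : ℕ → ℤ} {R : 𝒯} [MonObj R] (MP : ModStr R P)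

theorem isLin_shiftZero (e : ℤ) (he : e = 0) :
    IsLin MP MP ((shiftFunctorZero' 𝒯 e he).hom.app P) := by
  have h1 : Vale.Agent.P221.T.fm (tensorLeft R) ((shiftFunctorZero' 𝒯 e he).hom.app P) =
      (shiftFunctorZero' 𝒯 e he).hom.app (R ⊗ P) := H903.fm_zero_shift (tensorLeft R) e he
  unfold IsLin Vale.Agent.P221.T.ext
  rw [h1]
  exact ((shiftFunctorZero' 𝒯 e he).hom.naturality MP.act).symm

theorem isLin_self_ι (hP : PComplete p P) (J : Finset ℕ) (hJ : J.card = 0) :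
    IsLin MP MP ((freeOn_self hP : FreeOn p C P d 0 0 P).ι J) := by
  have hJ := Finset.card_eq_zero.1 hJ
  subst hJ
  rw [freeOn_self_ι]
  exact isLin_shiftZero MP _ _

end self

section coord

variable {p : ℕ} [Fact p.Prime] {R P W : 𝒯} [MonObj R] [IsCommMonObj R] (b : BPS p R P W)
  {Y Y' : 𝒯}

/-- the coordinates -/
noncomputable def yc (M : ModStr R Y) {k : ℤ} (f : P⟦k⟧ ⟶ Y) (E : ℕ →₀ ℕ) :
    (𝟙_ 𝒯)⟦k + dT p E⟧ ⟶ Y := gc rfl (b.τ E) (ext M (b.c⟦k⟧' ≫ f))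

theorem yc_ext (M : ModStr R Y) (hY : PComplete p Y) {k : ℤ} {f g : P⟦k⟧ ⟶ Y}
    (h : ∀ E, yc b M f E = yc b M g E) : f = g := by
  obtain ⟨a, -, ha⟩ := b.basis M hY k (fun E => yc b M f E)
  refine b.ext_c hY ?_
  rw [ha _ fun E => rfl, ha (b.c⟦k⟧' ≫ g) fun E => (h E).symm]

theorem exists_yc (M : ModStr R Y) (hY : PComplete p Y) {k : ℤ}
    (y : ∀ E : ℕ →₀ ℕ, (𝟙_ 𝒯)⟦k + dT p E⟧ ⟶ Y) : ∃ f : P⟦k⟧ ⟶ Y, ∀ E, yc b M f E = y E := by
  obtain ⟨a, ha, -⟩ := b.basis M hY k y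
  obtain ⟨f, rfl⟩ := b.exists_ext_c hY a
  exact ⟨f, ha⟩

theorem yc_comp {M : ModStr R Y} {M' : ModStr R Y'} {D : Y ⟶ Y'} (hD : M.IsLinear M' D) {k : ℤ}
    (f : P⟦k⟧ ⟶ Y) (E : ℕ →₀ ℕ) : yc b M' (f ≫ D) E = yc b M f E ≫ D := by
  have h1 : ext M' (b.c⟦k⟧' ≫ f ≫ D) = ext M (b.c⟦k⟧' ≫ f) ≫ D := by
    have hD' : M.act ≫ D = (R ◁ D) ≫ M'.act := hD
    unfold Vale.Agent.P221.T.ext
    rw [← Category.assoc, T.fm_comp, Category.assoc, Category.assoc, hD']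
    rfl
  unfold yc
  rw [h1, gc_comp]

end coord

end Vale.Agent.P221.T.H817
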