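import Vale.Agent.P221.H246.EtaT
import Vale.Agent.P221.H246.GenC

/-!
# P221, part T: the homotopy of the completion `P` of the Brown-Peterson monoid, modulo `p`

* `Fc c : π_{2*} B →+ π_* P` for `c : B ⟶ P`; `Fc_mul` : left multiplications;
* `surjZ_P`, `injZ_P` : `ℤ[v_1, v_2, …] ⟶ π_* P` is bijective modulo `p`.
-/

open CategoryTheory MonoidalCategory MonObj Limits Pretriangulated

set_option linter.unusedSectionVars false

universe v u

namespace Vale.Agent.P221.T.H817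

open Vale.Agent.P251 Vale.Agent.P251.S Vale.Agent.P251.T Vale.Agent.P251.M Vale.Agent.P251.F
  Vale.Agent.P251.I EvenSpheres Vale.Agent.P257.H80 Vale.Agent.P093.Nak
  Vale.Agent.P093.N.HH

open Vale.Agent.P251.X hiding lawOf
open Vale.Agent.P221.T Vale.Agent.P221.H246

variable {𝒯 : Type u} [Category.{0} 𝒯] [Preadditive 𝒯] [HasZeroObject 𝒯]
    [HasShift 𝒯 ℤ] [∀ n : ℤ, (shiftFunctor 𝒯 n).Additive] [Pretriangulated 𝒯] [IsTriangulated 𝒯]
    [MonoidalCategory 𝒯] [SymmetricCategory 𝒯] [TensorTriangulated 𝒯] [MonoidalClosed 𝒯]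
    [HasCoproducts.{0} 𝒯] [HasProducts.{0} 𝒯] [StableCat 𝒯]

section Fc

variable {B P : 𝒯} (c : B ⟶ P)

/-- the map `π_{2*} B → π_* P` -/
noncomputable def Fc : HRing (stdEven 𝒯) B →+ PiM P :=
  DirectSum.toAddMonoid fun n => (PiM.of P (2 * n)).comp
    { toFun := fun x => (stdSph n).inv ≫ x ≫ c
      map_zero' := by rw [zero_comp, comp_zero]
      map_add' := fun _ _ => by rw [Preadditive.add_comp, Preadditive.comp_add] }

theorem Fc_of {n k : ℤ} (h : k = 2 * n) (x : (stdEven 𝒯).S n ⟶ B) :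
    Fc c (HRing.of (stdEven 𝒯) B n x) = PiM.of P k ((sI h).hom ≫ x ≫ c) := by
  subst h
  rw [Fc, DirectSum.toAddMonoid_of, sI_rfl]
  rfl

variable [MonObj B] [IsCommMonObj B]

theorem Fc_one : Fc c 1 = PiM.of P 0 (zr 𝒯 ≫ η[B] ≫ c) := by
  rw [← of_one, Fc_of c (rfl : (0 : ℤ) = 2 * 0), sI_zero, Category.assoc, Category.assoc,
    Iso.hom_inv_id_assoc]

variable {c} {MP : ModStr B P} (hc : (ModStr.self B).IsLinear MP c)

include hc in
/-- left multiplication with a class -/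
theorem Fc_of_mul {m n k : ℤ} (hm : 0 ≤ m) (hn : 0 ≤ n) (hk : k = 2 * m)
    (a : (stdEven 𝒯).S m ⟶ B) (y : (stdEven 𝒯).S n ⟶ B) {k' : ℤ} (h : 2 * n + k = k') :
    Fc c (HRing.of (stdEven 𝒯) B m a * HRing.of (stdEven 𝒯) B n y) =
      PiM.of P k' (mul MP h ((sI hk).hom ≫ a) ((sI (rfl : 2 * n = 2 * n)).hom ≫ y ≫ c)) := by
  obtain ⟨l, rfl⟩ : ∃ l, k' = 2 * l := ⟨m + n, by omega⟩
  have hl : m + n = l := by omega
  rw [of_mul_of hl, Fc_of c (rfl : 2 * l = 2 * l), mul_sI MP hk h (by omega), sI_rfl, sI_rfl]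
  have h1 : gmul hl a y ≫ c = gsmul MP hl a (y ≫ c) :=
    (gsmul_comp (ModStr.self B) MP hc hl a y).symm
  rw [h1]
  congr 1
  exact (H924.mul_eq_gsmul MP hm hn hl (by omega) a (y ≫ c)).symm

end Fc

section main

variable {D : MUData 𝒯} {F : SpaceFunctor 𝒯} {e : F.S.obj CCF ≅ (stdEven 𝒯).L}
  {p : ℕ} [hp : Fact p.Prime] {B P : 𝒯} [MonObj B] [IsCommMonObj B]
  {b : D.R ⟶ B} [IsMonHom b] {c : B ⟶ P} {MP : ModStr B P}
  {Φ : MvPolynomial ℕ ℤ →+* HRing (stdEven 𝒯) B}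

/-- left multiplications -/
theorem Fc_left (hb : IsBPMon p b) (hΦ : lawOf b = (haz p).map Φ)
    (hc : (ModStr.self B).IsLinear MP c) (kk : KK p →+* AddMonoid.End (PiM P))
    (kk_v : ∀ (i : ℕ) {k k' : ℤ} (h : k + sV p (i + 1) = k') (y : (𝟙_ 𝒯)⟦k⟧ ⟶ P),
      kk (MvPolynomial.X i) (PiM.of P k y) = PiM.of P k' (mul MP h (vcl p Φ i) y))
    (G : MvPolynomial ℕ ℤ) : ∀ (n : ℤ), 0 ≤ n → ∀ y : (stdEven 𝒯).S n ⟶ B,
      Fc c (Φ G * HRing.of (stdEven 𝒯) B n y) =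
        kk (MvPolynomial.map (Int.castRingHom ℤ_[p]) G) (Fc c (HRing.of (stdEven 𝒯) B n y)) := by
  induction G using MvPolynomial.induction_on with
  | C a =>
    intro n hn y
    have h1 : (MvPolynomial.C a : MvPolynomial ℕ ℤ) = (a : MvPolynomial ℕ ℤ) := by
      rw [← map_intCast (MvPolynomial.C : ℤ →+* MvPolynomial ℕ ℤ) a, Int.cast_id]
    rw [h1, map_intCast, map_intCast, map_intCast, ← zsmul_eq_mul, map_zsmul]
    rfl
  | add G H hG hH =>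
    intro n hn y
    rw [map_add, map_add, _root_.add_mul, map_add, hG n hn y, hH n hn y, map_add]
    rfl
  | mul_X G i hG =>
    intro n hn y
    have hm : (0 : ℤ) ≤ ((p ^ (i + 1) - 1 : ℕ) : ℤ) := Int.natCast_nonneg _
    have h1 : Fc c (Φ (MvPolynomial.X i) * HRing.of (stdEven 𝒯) B n y) =
        kk (MvPolynomial.X i) (Fc c (HRing.of (stdEven 𝒯) B n y)) := by
      rw [Fc_of c (rfl : 2 * n = 2 * n), kk_v i rfl, ← of_X hb hΦ i,
        Fc_of_mul hc hm hn (sV_eq p i) _ _ rfl]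
      rfl
    have h2 : Φ (MvPolynomial.X i) * HRing.of (stdEven 𝒯) B n y = HRing.of (stdEven 𝒯) B _
        (gmul (rfl : ((p ^ (i + 1) - 1 : ℕ) : ℤ) + n = _)
          ((Φ (MvPolynomial.X i)) ((p ^ (i + 1) - 1 : ℕ) : ℤ)) y) := by
      rw [← of_X hb hΦ i, of_mul_of rfl, of_X hb hΦ i]
    have e2 : kk (MvPolynomial.map (Int.castRingHom ℤ_[p]) (G * MvPolynomial.X i)) =
        kk (MvPolynomial.map (Int.castRingHom ℤ_[p]) G) * kk (MvPolynomial.X i) := by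
      rw [map_mul, MvPolynomial.map_X, map_mul]
    have e1 : Φ (G * MvPolynomial.X i) = Φ G * Φ (MvPolynomial.X i) := map_mul _ _ _
    rw [e1, e2, _root_.mul_assoc, h2, hG _ (by omega) _, ← h2, h1]
    rfl

/-- the classes `G(v) ∈ π_* P` -/
theorem Fc_Phi (hb : IsBPMon p b) (hΦ : lawOf b = (haz p).map Φ)
    (hc : (ModStr.self B).IsLinear MP c) (kk : KK p →+* AddMonoid.End (PiM P))
    (kk_v : ∀ (i : ℕ) {k k' : ℤ} (h : k + sV p (i + 1) = k') (y : (𝟙_ 𝒯)⟦k⟧ ⟶ P),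
      kk (MvPolynomial.X i) (PiM.of P k y) = PiM.of P k' (mul MP h (vcl p Φ i) y))
    (G : MvPolynomial ℕ ℤ) :
    kk (MvPolynomial.map (Int.castRingHom ℤ_[p]) G) (PiM.of P 0 (zr 𝒯 ≫ η[B] ≫ c)) =
      Fc c (Φ G) := by
  have h1 := Fc_left hb hΦ hc kk kk_v G 0 le_rfl ((stdEven 𝒯).zero.inv ≫ η[B])
  rw [of_one, _root_.mul_one, Fc_one] at h1
  exact h1.symm

/-- the reduction modulo `p` of `G(v)` -/
theorem kappa_Phi {κ : HRing (stdEven 𝒯) B →+* MvPolynomial ℕ (ZMod p)}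
    (hΦ : lawOf b = (haz p).map Φ) (hκ : (lawOf b).map κ = H924.hazk p) (G : MvPolynomial ℕ ℤ) :
    κ (Φ G) = MvPolynomial.map (Int.castRingHom (ZMod p)) G := by
  have h1 : (haz p).map (κ.comp Φ) = (haz p).map (H924.redP p) := by
    rw [← Law.map_map, ← hΦ, hκ]
    rfl
  have h2 := haz_map_injective p
    (H746.pLoc_of_char (p := p) (A := MvPolynomial ℕ (ZMod p)) (H924.natCast_zero p)) h1
  exact congrArg (fun f : MvPolynomial ℕ ℤ →+* MvPolynomial ℕ (ZMod p) => f G) h2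

/-- **the classes `G(v)` generate `π_* P` modulo `p`** -/
theorem surjZ_P (hD : MUUniv e D) (hA : Vale.Agent.P093.N0.MUAll D) (hb : IsBPMon p b)
    (hΦ : lawOf b = (haz p).map Φ)
    (hc : (ModStr.self B).IsLinear MP c) (kk : KK p →+* AddMonoid.End (PiM P))
    (kk_v : ∀ (i : ℕ) {k k' : ℤ} (h : k + sV p (i + 1) = k') (y : (𝟙_ 𝒯)⟦k⟧ ⟶ P),
      kk (MvPolynomial.X i) (PiM.of P k y) = PiM.of P k' (mul MP h (vcl p Φ i) y))
    (hcg : CG p c) (z : PiM P) : ∃ (G : MvPolynomial ℕ ℤ) (z' : PiM P),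
      z = kk (MvPolynomial.map (Int.castRingHom ℤ_[p]) G) (PiM.of P 0 (zr 𝒯 ≫ η[B] ≫ c)) +
        (p : ℤ) • z' := by
  obtain ⟨κ, hκs, hκk, hκ⟩ := H746.exists_kappa hD hA hb
  induction z using DirectSum.induction_on with
  | zero =>
    refine ⟨0, 0, ?_⟩
    rw [map_zero, map_zero, smul_zero, _root_.add_zero]
    rfl
  | of k z =>
    obtain ⟨l, rfl | rfl⟩ := Int.even_or_odd' k
    · obtain ⟨a, z', rfl⟩ := hcg.surj l z
      obtain ⟨G, hG⟩ := MvPolynomial.map_surjective (Int.castRingHom (ZMod p))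
        ZMod.intCast_surjective (κ (HRing.of (stdEven 𝒯) B l ((stdSph l).hom ≫ a)))
      obtain ⟨y, hy⟩ := hκk (HRing.of (stdEven 𝒯) B l ((stdSph l).hom ≫ a) - Φ G) (by
        rw [map_sub, kappa_Phi hΦ hκ, hG, sub_self])
      refine ⟨G, Fc c y + PiM.of P (2 * l) z', ?_⟩
      rw [Fc_Phi hb hΦ hc kk kk_v, smul_add, ← map_zsmul, ← map_zsmul, ← _root_.add_assoc,
        ← map_add]
      have h1 : Φ G + (p : ℤ) • y = HRing.of (stdEven 𝒯) B l ((stdSph l).hom ≫ a) := by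
        rw [zsmul_eq_mul, Int.cast_natCast, ← hy]
        abel
      rw [h1, Fc_of c (rfl : 2 * l = 2 * l), sI_rfl, Iso.symm_hom, Category.assoc,
        Iso.inv_hom_id_assoc, ← map_add]
    · rw [hcg.odd l z]
      refine ⟨0, 0, ?_⟩
      rw [map_zero, map_zero, map_zero, smul_zero, _root_.add_zero]
      rfl
  | add z₁ z₂ h₁ h₂ =>
    obtain ⟨G₁, z₁', rfl⟩ := h₁
    obtain ⟨G₂, z₂', rfl⟩ := h₂
    refine ⟨G₁ + G₂, z₁' + z₂', ?_⟩
    rw [map_add, map_add, smul_add]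
    exact add_add_add_comm _ _ _ _

/-- components of `Fc` -/
theorem Fc_apply (y : HRing (stdEven 𝒯) B) (l : ℤ) :
    (Fc c y) (2 * l) = (stdSph l).inv ≫ (y l : (stdEven 𝒯).S l ⟶ B) ≫ c := by
  induction y using DirectSum.induction_on with
  | zero =>
    rw [map_zero]
    change (0 : (𝟙_ 𝒯)⟦2 * l⟧ ⟶ P) = (stdSph l).inv ≫ (0 : (stdEven 𝒯).S l ⟶ B) ≫ c
    rw [zero_comp, comp_zero]
  | of n x =>
    have h1 : Fc c (DirectSum.of ((stdEven 𝒯).Gr B) n x) = PiM.of P (2 * n) ((stdSph n).inv ≫ x ≫ c) := by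
      refine (Fc_of c (rfl : 2 * n = 2 * n) x).trans ?_
      rw [sI_rfl]
      rfl
    rw [h1]
    by_cases hn : n = l
    · subst hn
      rw [DirectSum.of_eq_same, DirectSum.of_eq_same]
    · have h2 : (DirectSum.of ((stdEven 𝒯).Gr B) n x) l = 0 :=
        DirectSum.of_eq_of_ne (β := (stdEven 𝒯).Gr B) _ _ _ (Ne.symm hn)
      rw [DirectSum.of_eq_of_ne _ _ _ (by omega), h2]
      change (0 : (𝟙_ 𝒯)⟦2 * l⟧ ⟶ P) = (stdSph l).inv ≫ (0 : (stdEven 𝒯).S l ⟶ B) ≫ c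
      rw [zero_comp, comp_zero]
  | add x y hx hy =>
    rw [map_add, DirectSum.add_apply, hx, hy, DirectSum.add_apply]
    exact (congrArg (fun f => (stdSph l).inv ≫ f) (Preadditive.add_comp _ _ _ _ _ _)).trans
      (Preadditive.comp_add _ _ _ _ _ _) |>.symm

/-- **the classes `G(v)` are independent modulo `p`** -/
theorem injZ_P (hD : MUUniv e D) (hA : Vale.Agent.P093.N0.MUAll D) (hb : IsBPMon p b)
    (hΦ : lawOf b = (haz p).map Φ)
    (hc : (ModStr.self B).IsLinear MP c) (kk : KK p →+* AddMonoid.End (PiM P))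
    (kk_v : ∀ (i : ℕ) {k k' : ℤ} (h : k + sV p (i + 1) = k') (y : (𝟙_ 𝒯)⟦k⟧ ⟶ P),
      kk (MvPolynomial.X i) (PiM.of P k y) = PiM.of P k' (mul MP h (vcl p Φ i) y))
    (hcg : CG p c) (G : MvPolynomial ℕ ℤ) (z' : PiM P)
    (h : kk (MvPolynomial.map (Int.castRingHom ℤ_[p]) G) (PiM.of P 0 (zr 𝒯 ≫ η[B] ≫ c)) =
      (p : ℤ) • z') : MvPolynomial.C (p : ℤ) ∣ G := by
  obtain ⟨κ, hκs, hκk, hκ⟩ := H746.exists_kappa hD hA hb
  rw [Fc_Phi hb hΦ hc kk kk_v] at h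
  have h1 : ∀ l : ℤ, ∃ a : (stdEven 𝒯).S l ⟶ B, ((Φ G) l : (stdEven 𝒯).S l ⟶ B) = (p : ℤ) • a := by
    intro l
    have h2 := congrArg (fun x : PiM P => x (2 * l)) h
    dsimp only at h2
    rw [Fc_apply] at h2
    have h3 : (((p : ℤ) • z' : PiM P)) (2 * l) = (p : ℤ) • (z' (2 * l) : (𝟙_ 𝒯)⟦2 * l⟧ ⟶ P) :=
      DFinsupp.zsmul_apply _ _ _
    rw [h3, ← Category.assoc] at h2
    obtain ⟨a, ha⟩ := hcg.inj l _ _ h2
    refine ⟨(stdSph l).hom ≫ a, ?_⟩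
    rw [← Preadditive.comp_zsmul, ← ha, Iso.hom_inv_id_assoc]
  choose a ha using h1
  classical
  have h2 : Φ G = (p : HRing (stdEven 𝒯) B) *
      ∑ l ∈ DFinsupp.support (Φ G), HRing.of (stdEven 𝒯) B l (a l) := by
    have h3 : (p : HRing (stdEven 𝒯) B) * (∑ l ∈ DFinsupp.support (Φ G),
        HRing.of (stdEven 𝒯) B l (a l)) = ∑ l ∈ DFinsupp.support (Φ G),
          HRing.of (stdEven 𝒯) B l ((Φ G) l) := by
      rw [Finset.mul_sum]
      refine Finset.sum_congr rfl fun l _ => ?_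
      rw [ha l, H746.of_zsmul', Int.cast_natCast]
    rw [h3]
    exact (DirectSum.sum_support_of (β := (stdEven 𝒯).Gr B) (Φ G)).symm
  have h3 : MvPolynomial.map (Int.castRingHom (ZMod p)) G = 0 := by
    rw [← kappa_Phi hΦ hκ, h2, map_mul, map_natCast, H924.natCast_zero, zero_mul]
  rw [MvPolynomial.C_dvd_iff_map_hom_eq_zero (Int.castRingHom (ZMod p)) (p : ℤ)]
  · exact h3
  · intro c'
    rw [eq_intCast, ZMod.intCast_zmod_eq_zero_iff_dvd]

/-- the homotopy of the completion of `B` -/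
theorem cg_P (hD : MUUniv e D) (hA : Vale.Agent.P093.N0.MUAll D) (hb : IsBPMon p b)
    (hP : H395.PComplete p P)
    (hm : ∀ (C : 𝒯) (i : 𝟙_ 𝒯 ⟶ C) (δ : C ⟶ (𝟙_ 𝒯)⟦(1 : ℤ)⟧),
      Triangle.mk ((p : ℤ) • 𝟙 (𝟙_ 𝒯)) i δ ∈ distTriang 𝒯 → IsIso (c ▷ C)) : CG p c := by
  obtain ⟨C, i, δ, hC⟩ := H746.exists_moore (𝒯 := 𝒯) (p : ℤ)
  exact cg_of_good hC (H746.good_bp hD hA hb) hP (hm C i δ hC)

end main

end Vale.Agent.P221.T.H817
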