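import Vale.Agent.P221.H746.Kap
import Vale.Agent.P221.H246.BPB

/-!
# P221, part T: the odd homotopy of `B ⊗ B`
-/

open CategoryTheory MonoidalCategory MonObj Limits Pretriangulated

set_option linter.unusedSectionVars false

universe u

namespace Vale.Agent.P221.T.H817

open Vale.Agent.P251 Vale.Agent.P251.S Vale.Agent.P251.T Vale.Agent.P251.M Vale.Agent.P251.F
  Vale.Agent.P251.I EvenSpheres Vale.Agent.P257.H80 Vale.Agent.P251.Q Vale.Agent.P221.H924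
  Vale.Agent.P093.N0 Vale.Agent.P221.H746 Vale.Agent.P257.H604

variable {𝒯 : Type u} [Category.{0} 𝒯] [Preadditive 𝒯] [HasZeroObject 𝒯]
    [HasShift 𝒯 ℤ] [∀ n : ℤ, (shiftFunctor 𝒯 n).Additive] [Pretriangulated 𝒯] [IsTriangulated 𝒯]
    [MonoidalCategory 𝒯] [SymmetricCategory 𝒯] [TensorTriangulated 𝒯] [MonoidalClosed 𝒯]
    [HasCoproducts.{0} 𝒯] [HasProducts.{0} 𝒯] [StableCat 𝒯]

variable {D : MUData 𝒯} {p : ℕ} [hp : Fact p.Prime]

theorem good_Am (hA : MUAll D) (s : ℕ) : Good p (Am D.R (s + 1)) := by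
  obtain ⟨C, i, δ, hC⟩ := exists_moore (𝒯 := 𝒯) (p : ℤ)
  have hodd : ∀ (k : ℤ) (W : 𝒯) (_ : W ≅ (𝟙_ 𝒯)⟦2 * k + 1⟧) (f : W ⟶ Am D.R (s + 1) ⊗ C), f = 0 := by
    intro k W e f
    rw [← cancel_epi e.inv, hA.odd p s C i δ hC k (e.inv ≫ f), comp_zero]
  refine ⟨fun w a ha => ?_, fun k a ha => ?_, fun k a => ?_⟩
  · refine torsionFree_of_lift hC (fun f => ⟨0, ?_⟩) a ha
    rw [zero_comp]
    refine hodd w _ ((shiftFunctor 𝒯 (1 : ℤ)).mapIso (stdSph w) ≪≫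
      ((shiftFunctorAdd' 𝒯 (2 * w) 1 (2 * w + 1) rfl).app _).symm) f
  · refine torsionFree_of_lift hC (fun f => ?_) a ha
    have e : (stdEven 𝒯).S (k + 1) ≅ ((𝟙_ 𝒯)⟦2 * k + 1⟧)⟦(1 : ℤ)⟧ :=
      stdSph (k + 1) ≪≫ (shiftFunctorAdd' 𝒯 (2 * k + 1) 1 (2 * (k + 1)) (by ring)).app _
    obtain ⟨_, a', _, _, h2⟩ := hA.surj p s C i δ hC (k + 1) (e.hom ≫ f)
    refine ⟨e.inv ≫ a', ?_⟩
    rw [← cancel_epi e.hom, h2, Category.assoc, Iso.hom_inv_id_assoc]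
  · exact ModP.exists_zsmul_of_comp_eq_zero hC a (hA.odd p s C i δ hC k _)

theorem good_iso {X Y : 𝒯} (h : Good p Y) (e : X ≅ Y) : Good p X :=
  h.retract e.hom e.inv e.hom_inv_id

theorem good_mm (hA : MUAll D) : Good p (D.R ⊗ D.R) :=
  good_iso (good_Am hA 1) (whiskerRightIso (λ_ D.R).symm D.R)

/-- localizations are unique -/
theorem exists_iso_of_isPLoc {R Rp Rp' : 𝒯} {l : R ⟶ Rp} {l' : R ⟶ Rp'} (h : IsPLoc p l)
    (h' : IsPLoc p l') : Nonempty (Rp ≅ Rp') := by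
  have h1 := IsPLoc.isLoc h
  have h2 := IsPLoc.isLoc h'
  obtain ⟨f, hf⟩ := h1.exists_ext h2.loc l'
  obtain ⟨g, hg⟩ := h2.exists_ext h1.loc l
  exact ⟨⟨f, g, h1.ext h1.loc (by rw [← Category.assoc, hf, hg, Category.comp_id]),
    h2.ext h2.loc (by rw [← Category.assoc, hg, hf, Category.comp_id])⟩⟩

/-- `X` a `p`-localization of `R` : the homotopy of `X ⊗ W` -/
theorem good_tensor {R Rp W : 𝒯} {l : R ⟶ Rp} (h : IsPLoc p l) (hW : Good p (R ⊗ W)) :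
    Good p (Rp ⊗ W) := by
  let U : Tel (X := fun _ => 𝟙_ 𝒯) (locSeq p (𝟙_ 𝒯)) := tel _
  have h1 := isPLoc_tel hp.out R U
  have h2 := isPLoc_tel hp.out (R ⊗ W) U
  obtain ⟨e⟩ := exists_iso_of_isPLoc h h1
  refine good_iso (hW.loc hp.out (IsPLoc.isLocPi h2) (IsPLoc.isLoc h2).loc) ?_
  exact whiskerRightIso e W ≪≫ α_ _ _ _ ≪≫ whiskerLeftIso R (β_ _ _) ≪≫ (α_ _ _ _).symm

variable {F : SpaceFunctor 𝒯} {e : F.S.obj CCF ≅ (stdEven 𝒯).L}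
  {B : 𝒯} [MonObj B] [IsCommMonObj B] {b : D.R ⟶ B} [IsMonHom b]

theorem good_bm (hD : MUUniv e D) (hA : MUAll D) (hb : IsBPMon p b) : Good p (B ⊗ D.R) := by
  obtain ⟨Rp, _, _, l, _, hl, f, _, g, _, _, hfg, _⟩ := exists_retract hD hb
  refine (good_tensor hl (good_mm hA)).retract (f ▷ D.R) (g ▷ D.R) ?_
  rw [← comp_whiskerRight, hfg, id_whiskerRight]

/-- **the homotopy of `B ⊗ B` has no `p`-torsion, and `p` is bijective on the odd part** -/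
theorem good_BB (hD : MUUniv e D) (hA : MUAll D) (hb : IsBPMon p b) : Good p (B ⊗ B) := by
  obtain ⟨σ, _, _, _, h⟩ := Vale.Agent.P221.H246.exists_sigma hD hb
  exact (good_bm hD hA hb).retract σ (B ◁ b) h

end Vale.Agent.P221.T.H817
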