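import Vale.Agent.P221.T.H817.E2I
import Vale.Agent.P221.T.H817.SpecSrc

/-!
# P221, part (E3-2): the first Koszul cohomology of `coker ([P⟦k⟧, F_1] ⟶ [P⟦k⟧, P])`

`h1P_of` : `H1P p C x b.cP` for `x l = v_{n+1+l}` from the vanishing `BBH1 p n` for functionals with
values in `ℤ_p[v_1, …, v_n]`.
-/

open CategoryTheory MonoidalCategory MonObj Limits Pretriangulated
open Vale.Agent.P251.T Vale.Agent.P251.S Vale.Agent.P221.H395 Vale.Agent.P221.H903
open MvPolynomial (coeff monomial rename)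

set_option linter.unusedSectionVars false

universe u

namespace Vale.Agent.P221.T.H817

section alg

variable (p n : ℕ) [hp : Fact p.Prime]

/-- homogeneous elements of `ℤ_p[v_1, …, v_n]` -/
def Ag (k : ℤ) (f : MvPolynomial (Fin n) ℤ_[p]) : Prop :=
  HK p k (rename (fun i : Fin n => (i : ℕ)) f)

/-- the vanishing for functionals with values in `ℤ_p[v_1, …, v_n]` -/
def BBH1 : Prop :=
  letI : Module (KK p) (MvPolynomial (Fin n) ℤ_[p]) := Module.compHom _ (piN p n)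
  ∀ (ld : Lead p n) (S : Src p n) (O : OpAlg ld S) (m : ℕ) (c : ℤ), 0 ≤ c →
    ∀ (ψ : ℕ → (GG p →ₗ[KK p] MvPolynomial (Fin n) ℤ_[p])),
    (∀ l < m, ∀ E, Ag p n (c + dd p n l + dT p E) (ψ l (monomial E 1))) →
    (∀ i < m, ∀ l < m, ψ l ∘ₗ O.T _ (S.x i) = ψ i ∘ₗ O.T _ (S.x l)) →
    ∃ φ : GG p →ₗ[KK p] MvPolynomial (Fin n) ℤ_[p],
      (∀ E, Ag p n (c + dT p E) (φ (monomial E 1))) ∧ ∀ l < m, φ ∘ₗ O.T _ (S.x l) = ψ l

variable {p n}

/-- `piN` preserves degrees -/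
theorem ag_piN {k : ℤ} {g : KK p} (hg : HK p k g) : Ag p n k (piN p n g) := by
  classical
  unfold Ag
  have h1 : ∀ i, HK p (sV p (i + 1)) (rename (fun i : Fin n => (i : ℕ)) (piN p n (MvPolynomial.X i))) := by
    intro i
    by_cases h : i < n
    · rw [piN_X_lt p n h, MvPolynomial.rename_X]
      exact MvPolynomial.isWeightedHomogeneous_X _ _ _
    · rw [piN_X_ge p n (not_lt.1 h), map_zero]
      exact hk_zero _
  have h2 : rename (fun i : Fin n => (i : ℕ)) (piN p n g) = ∑ E ∈ g.support,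
      rename (fun i : Fin n => (i : ℕ)) (piN p n (monomial E (coeff E g))) := by
    conv_lhs => rw [g.as_sum]
    rw [map_sum, map_sum]
  rw [h2]
  refine hk_sum p _ _ fun E hE => ?_
  rw [MvPolynomial.monomial_eq, map_mul, map_mul, piN_C, MvPolynomial.rename_C, Finsupp.prod,
    map_prod, map_prod]
  have h3 : HK p (∑ i ∈ E.support, E i • sV p (i + 1)) (∏ i ∈ E.support,
      rename (fun i : Fin n => (i : ℕ)) (piN p n (MvPolynomial.X i ^ E i))) := by
    refine MvPolynomial.IsWeightedHomogeneous.prod _ _ _ fun i _ => ?_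
    rw [map_pow, map_pow]
    exact (h1 i).pow _
  have h4 : ∑ i ∈ E.support, E i • sV p (i + 1) = k := by
    rw [← hg (MvPolynomial.mem_support_iff.1 hE), Finsupp.weight_apply]
    rfl
  rw [h4] at h3
  have h5 := (MvPolynomial.isWeightedHomogeneous_C (fun i => sV p (i + 1)) (coeff E g)).mul h3
  rwa [zero_add] at h5

end alg

variable {𝒯 : Type u} [Category.{0} 𝒯] [Preadditive 𝒯] [HasZeroObject 𝒯]
    [HasShift 𝒯 ℤ] [∀ n : ℤ, (shiftFunctor 𝒯 n).Additive] [Pretriangulated 𝒯] [IsTriangulated 𝒯]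
    [MonoidalCategory 𝒯] [SymmetricCategory 𝒯] [TensorTriangulated 𝒯] [MonoidalClosed 𝒯]
    [HasCoproducts.{0} 𝒯] [HasProducts.{0} 𝒯] [StableCat 𝒯]

variable {p n : ℕ} [hp : Fact p.Prime] {R P W : 𝒯} [MonObj R] [IsCommMonObj R] (b : BPS p R P W)

/-- the functional of a map, with values in `ℤ_p[v_1, …, v_n]` -/
noncomputable def Lam (n : ℕ) {k : ℤ} (γ : P⟦k⟧ ⟶ P) :
    letI : Module (KK p) (MvPolynomial (Fin n) ℤ_[p]) := Module.compHom _ (piN p n)
    GG p →ₗ[KK p] MvPolynomial (Fin n) ℤ_[p] :=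
  letI : Module (KK p) (MvPolynomial (Fin n) ℤ_[p]) := Module.compHom _ (piN p n)
  { toFun := fun z => piN p n (coeff 0 (b.T γ z))
    map_add' := fun z z' => by rw [map_add, MvPolynomial.coeff_add, map_add]
    map_smul' := fun a z => by
      rw [map_smul, MvPolynomial.coeff_smul, smul_eq_mul, map_mul]
      rfl }

theorem Lam_apply {k : ℤ} (γ : P⟦k⟧ ⟶ P) (z : GG p) :
    Lam b n γ z = piN p n (coeff 0 (b.T γ z)) := rfl

/-- **(E3-2)** -/
theorem h1P_of (hbb : BBH1 p n) (ld : Lead p n) {C : 𝒯} {i : 𝟙_ 𝒯 ⟶ C}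
    {δ : C ⟶ (𝟙_ 𝒯)⟦(1 : ℤ)⟧}
    (hC : Triangle.mk ((p : ℤ) • 𝟙 (𝟙_ 𝒯)) i δ ∈ distTriang 𝒯) {x : ∀ l, P⟦dd p n l⟧ ⟶ P}
    (hx : ∀ l, b.c⟦dd p n l⟧' ≫ x l =
      hat b.MP (b.cls (dd p n l) (MvPolynomial.X (n + l)))) :
    H1P p C x b.cP := by
  let _ : Module (KK p) (MvPolynomial (Fin n) ℤ_[p]) := Module.compHom _ (piN p n)
  intro Z 𝔽 D hK m c hc ψ hψ
  have A1 := b.specA1
  have B1 := H598.specB1 b A1
  have B2 := H609.specB2 b A1 B1
  have hX2 : ∀ l, (MvPolynomial.X (n + l) : KK p) - MvPolynomial.X (n + l) ∈ II p ^ 2 := fun l => by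
    rw [sub_self]
    exact Ideal.zero_mem _
  let S := b.srcT ld A1 B1 (fun l => MvPolynomial.X (n + l)) (hk_X p n)
  let O := b.opAlg ld A1 B1 B2 (fun l => MvPolynomial.X (n + l)) (hk_X p n) hX2
  have hSx : ∀ l, S.x l = x l := fun l => b.ext_c b.cP (by
    rw [hx]
    exact b.c_cext b.cP _)
  have hT : ∀ (k : ℤ) (γ : P⟦k⟧ ⟶ P), O.T k γ = b.T γ := fun _ _ => rfl
  have hext : ∀ {f g : GG p →ₗ[KK p] MvPolynomial (Fin n) ℤ_[p]},
      (∀ E, f (monomial E 1) = g (monomial E 1)) → f = g := fun {f g} h =>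
    (MvPolynomial.basisMonomials ℕ (KK p)).ext fun E => by
      rw [MvPolynomial.coe_basisMonomials]
      exact h E
  obtain ⟨φ', hφ', hφψ⟩ := hbb ld S.src O m c hc (fun l => Lam b n (ψ l))
    (fun l _ E => ag_piN (H609.HK_coeff_T b A1 (ψ l) E)) (fun i hi l hl => hext fun E => by
      obtain ⟨f, hf⟩ := hψ i hi l hl (c + dd p n l + dd p n i) rfl (by ring)
      have h1 := piN_of_comp b hx hC hK f E
      rw [hf, sub_eq_add_neg, A1.T_add, b.T_neg A1, A1.T_gc, A1.T_gc, LinearMap.add_apply,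
        LinearMap.neg_apply, MvPolynomial.coeff_add, MvPolynomial.coeff_neg, map_add, map_neg,
        add_neg_eq_zero] at h1
      have e1 : ∀ j, O.T _ (S.src.x j) = b.T (x j) := fun j => by
        rw [← hSx j]
        rfl
      rw [LinearMap.comp_apply, LinearMap.comp_apply, e1, e1]
      exact h1)
  obtain ⟨φ, hφ⟩ := B2.exists_T c (fun E => rename (fun i : Fin n => (i : ℕ)) (φ' (monomial E 1)))
    hφ'
  have hφ2 : Lam b n φ = φ' := hext fun E => by
    rw [Lam_apply, hφ, piN_rename]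
  refine ⟨φ, fun l hl => ?_⟩
  refine exists_of_piN b hx hK _ fun E => ?_
  have h1 := LinearMap.congr_fun (hφψ l hl) (monomial E 1)
  have e1 : O.T _ (S.src.x l) = b.T (x l) := by
    rw [← hSx l]
    rfl
  rw [LinearMap.comp_apply, e1, ← hφ2, Lam_apply, Lam_apply] at h1
  rw [sub_eq_add_neg, A1.T_add, b.T_neg A1, A1.T_gc, LinearMap.add_apply,
    LinearMap.neg_apply, MvPolynomial.coeff_add, MvPolynomial.coeff_neg, map_add, map_neg,
    add_neg_eq_zero]
  exact h1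

end Vale.Agent.P221.T.H817
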